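import Vale.Agent.P216FA.Plan
import Vale.Agent.P216DC.CvC
import Vale.Agent.P216U.Cmp
import Vale.Agent.P216LC.Nmp
import Vale.Agent.P216MP.Rig

/-! # Bounded curvature backward in time, and ancient limits -/

open scoped Manifold ContDiff Topology ENNReal
open Set MeasureTheory Filter

set_option maxSynthPendingDepth 3

noncomputable section

namespace Vale.Agent.P216HY

open P216R P216DC P216FA

theorem ok_mono {P : Cs} {e e' : ℝ} (h : P.Ok e) (he : e ≤ e') : P.Ok e' :=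
  { h with εe := h.εe.trans he }

theorem bnd (hS : SCALE) (hL : LPX) (hW : LOWP) (hB : BCA) : BND := by
  intro c
  obtain ⟨e₁, p₁, hL⟩ := hL c
  obtain ⟨e₂, p₂, hB⟩ := hB c
  refine ⟨min e₁ e₂, lt_min p₁ p₂, fun P hc hP ι l X F T hU hδ hT hE => ?_⟩
  obtain ⟨L, G, H⟩ := hL P hc (ok_mono hP (min_le_left _ _)) ι l X F _ hU (bk_Ioc hT)
    fun τ h0 h1 => hE τ ⟨h0, by linarith [h1.1]⟩
  have h0 : (0 : ℝ) ∈ Ioc (-T) 0 := ⟨by linarith, le_rfl⟩
  obtain ⟨K, ℓ, hK⟩ := hW ⟨L.X⟩ G univ T P.κ P.L P.A hT hP.κ0 (by linarith [hP.A1]) H.fl.rf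
    (fun t ht => ⟨H.nn t ht, H.lt t ht, (H.bdd t ht).imp fun K h s hs x _ => h s hs x⟩)
    fun x _ => H.nc 0 h0 x
  obtain ⟨K', hK'⟩ := hB P hc (ok_mono hP (min_le_right _ _)) (K + 1) ℓ
  have key : ∀ t ∈ Ioc (-T) 0, ∀ p, Sc (G t) p ≤ K' := fun t ht p => by
    obtain ⟨y, hy, hy'⟩ := hK t ht p trivial
    obtain ⟨r, hr⟩ := H.reg t ht {y} isCompact_singleton
    obtain ⟨lev, l0, hlev⟩ := hK' r (-t)
    have hm : ∀ᶠ n in (l : Filter ι), Met ((F n).g t) ((F n).sl t) := by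
      filter_upwards [hr, hU.ctl (-t + 1) (by linarith [ht.2])] with n h1 h2
      exact h2.bas.sf.met (hS.regSl _ _ _ _ _ _ _ _ h2.bas (by linarith [h2.env.init])
        (h1 t ⟨le_rfl, ht.2⟩ y rfl))
    have c1 := fun q => conv_sc_pt (H.conv t ht) hm (mem_univ q)
    refine le_of_tendsto (c1 p) ?_
    filter_upwards [hr, hU.ctl lev l0, hδ, (c1 y).eventually
      (gt_mem_nhds (lt_add_of_le_of_pos hy' one_pos)),
      (H.conv t ht).ed_lt (p := y) (q := p) (ed_comm.trans_lt hy)] with n h1 h2 h3 h4 h5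
    exact hlev _ _ _ _ _ h2 h3 (h1 t ⟨le_rfl, ht.2⟩ y rfl) h4.le _ h5
  exact ⟨K' + 1, fun τ hτ => H.eb τ hτ.1 ⟨by linarith [hτ.2], by linarith [hτ.1]⟩ K'
    fun s hs p => key s ⟨by linarith [hτ.2, hs.1], hs.2⟩ p⟩

theorem kout (hL : LPX) (hH : FHARN) : KOUT := by
  intro c
  obtain ⟨e, p₁, hL⟩ := hL c
  refine ⟨e, p₁, fun P hc hP ι l X F hU hE => ?_⟩
  obtain ⟨L, G, H⟩ := hL P hc hP ι l X F _ hU bk_Iic fun τ h0 _ => hE τ h0
  have hA : Anc G univ := ⟨H.fl.rf, (H.nn 0 self_mem_Iic).hs, (H.nn 0 self_mem_Iic).con,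
    fun t ht => (H.nn t ht).cpl, fun t ht => (H.nn t ht).sec⟩
  obtain ⟨K, hK⟩ := H.bdd 0 self_mem_Iic
  have hb : ∀ t ≤ 0, ∀ x, Sc (G t) x ≤ 2 * |K| := fun t ht x => by
    obtain ⟨K', hK'⟩ := H.bdd (2 * t - 1) (by simp only [mem_Iic]; linarith)
    have h1 := hH ⟨L.X⟩ G univ (2 * t - 1) 0 K' (hA.rf.mono_time fun _ hs => hs.2)
      (fun s hs => ⟨H.nn s hs.2, fun x _ => hK' s hs x⟩) x trivial
      (show t ∈ Icc (2 * t - 1) 0 from ⟨by linarith, ht⟩)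
      (show 0 ∈ Icc (2 * t - 1) 0 from ⟨by linarith, le_rfl⟩) ht
    have h2 := (hK 0 ⟨le_rfl, le_rfl⟩ x).trans (le_abs_self K)
    refine le_of_mul_le_mul_left (a := 1 - t) ?_ (by linarith)
    simp only at h1
    nlinarith [abs_nonneg K]
  refine ⟨L, G, H.fl, ⟨hA, ⟨_, fun t ht x _ => hb t ht x⟩, fun t ht x _ => ?_,
    fun t ht x _ => H.nc t ht x⟩, _, fun T hT => H.eb T hT (by simp only [mem_Iic]; linarith) _
      fun s hs => hb s hs.2⟩
  have hC := P216LC.cb_of_anc hA (fun t ht x _ => hb t ht x) ht le_rfl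
  refine (hC.sc_nonneg ⟨le_rfl, ht⟩ trivial).lt_of_ne' fun e => ?_
  have h1 := hC.flat (fun y _ => (P216MP.s1_flat (a := t - 1)
    (hA.rf.mono_time fun _ hs => hs.2.trans ht) hA.conn (fun s hs => hA.sec s (hs.2.trans ht))
    trivial e t ⟨by linarith, le_rfl⟩ y trivial).le) 0 ⟨ht, le_rfl⟩ L.o trivial
  rw [H.one] at h1
  exact one_ne_zero h1

end Vale.Agent.P216HY
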