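import Vale.Agent.P216H.Trace
import Vale.Agent.P216HY.Bnd
import Vale.Agent.P216L.Lowp
import Vale.Agent.P216BG.Np
import Vale.Agent.P216LC.NmpA
import Vale.Agent.P216J.Scale

/-! # The Harnack inequality on finite intervals and its consequences -/

open Set

namespace Vale.Agent.P216HY

open P216FA

theorem fharn : FHARN := fun _ _ _ _ b _ h H _ hx _ hs _ ht hst =>
  have hb : b ∈ Icc _ b := ⟨hs.1.trans hs.2, le_rfl⟩
  P216H.mono_fin h (H b hb).1.hs (H b hb).1.con (H b hb).1.cpl (fun u hu => (H u hu).1.sec)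
    (fun u hu => (H u hu).2) hx hs ht hst

theorem lowp' : LOWP := P216L.lowp fharn P216BG.tv P216LC.nmp

theorem bnd' (hL : LPX) (hB : BCA) : BND := bnd P216J.scale hL lowp' hB

theorem kout' (hL : LPX) : KOUT := kout hL fharn

end Vale.Agent.P216HY
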