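import Vale.Agent.P216FB.Plan
import Vale.Agent.P216FB.Sm
import Vale.Agent.P216FI.Vol2

/-! # Local no collapsing near thick balls -/

open scoped Manifold ContDiff Topology ENNReal
open Set MeasureTheory Real

set_option maxSynthPendingDepth 3

noncomputable section

namespace Vale.Agent.P216HY

open P216R P216FB P216DC
open P216ST (Sm0)

theorem sl_up {M : Type} {b d : M → ℝ} {s₁ T T₀ T₁ t : ℝ} {U : Set M} (h : Sl b d s₁ T U t)
    (h0 : T₀ ≤ s₁) (h1 : T ≤ T₁) : Sl b d T₀ T₁ U t :=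
  (h.mono h1).imp (fun h => ⟨⟨h0.trans_lt h.1.1, h.1.2⟩, h.2⟩)
    fun h => ⟨⟨h0.trans h.1.1, h.1.2⟩, h.2⟩

theorem sl_down {M : Type} {b d : M → ℝ} {s₁ T T₀ T₁ t : ℝ} {U : Set M} (h : Sl b d T₀ T₁ U t)
    (h0 : s₁ < t) (h1 : t < T) : Sl b d s₁ (min T₁ T) U t :=
  h.imp (fun h => ⟨⟨h0, le_min h.1.2 h1.le⟩, h.2⟩) fun h => ⟨⟨h0.le, lt_min h.1.2 h1⟩, h.2⟩

theorem wt_bd {q : ℝ} (hq : 0 ≤ q) :
    0 < (√(1 + q))⁻¹ ∧ (√(1 + q))⁻¹ ≤ 1 ∧ 1 - (√(1 + q))⁻¹ ≤ q / 2 := by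
  have h1 : 1 ≤ √(1 + q) := one_le_sqrt.2 (by linarith)
  have h2 : √(1 + q) ≤ 1 + q / 2 := sqrt_le_iff.2 ⟨by linarith, by nlinarith⟩
  refine ⟨by positivity, inv_le_one_of_one_le₀ h1, ?_⟩
  have h3 : (1 + q / 2)⁻¹ ≤ (√(1 + q))⁻¹ := inv_anti₀ (by linarith) h2
  have h4 : 1 - q / 2 ≤ (1 + q / 2)⁻¹ := by
    rw [← one_div, le_div_iff₀ (by linarith)]
    nlinarith
  linarith

/-- the mass defect of the initial weight -/
theorem mass_le {M : Type} [TopologicalSpace M] [ChartedSpace E3 M] [IsManifold 𝓘(ℝ, E3) ∞ M]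
    [MeasurableSpace M] [BorelSpace M] {g : Ten E3 M} {U : Set M} {p : M → ℝ} {ε V k : ℝ}
    (hg : Met g U) (hc : IsCompact U) (hp : Sm0 E3 p U) (h1 : ∫ x in U, p x ^ 2 ∂vol g < 1)
    (hε : 0 ≤ ε) (hV : 0 ≤ V) (hv : vol g U ≤ ENNReal.ofReal V) (hk : 0 ≤ k) :
    ∫ x in U, (1 + ε - (√(1 + p x ^ 2 * k))⁻¹) ∂vol g ≤ ε * V + k / 2 := by
  have hm := hg.isOpen.measurableSet
  have hf := isFiniteMeasure_vol hg hc Subset.rfl
  have i1 : IntegrableOn (fun x => p x ^ 2) U (vol g) :=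
    integrableOn_vol hg hc Subset.rfl hm ((s0_cont hg.isOpen hp).pow 2)
  have h2 : ∫ x in U, (1 + ε - (√(1 + p x ^ 2 * k))⁻¹) ∂vol g ≤
      ∫ x in U, (ε + k / 2 * p x ^ 2) ∂vol g :=
    integral_mono_of_nonneg (Filter.Eventually.of_forall fun x => by
      have := (wt_bd (mul_nonneg (sq_nonneg (p x)) hk)).2.1
      simp only [Pi.zero_apply]
      linarith) ((integrable_const ε).add (i1.const_mul _))
      (Filter.Eventually.of_forall fun x => by
        have := (wt_bd (mul_nonneg (sq_nonneg (p x)) hk)).2.2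
        simp only
        linarith)
  rw [integral_add (integrable_const ε) (i1.const_mul _), integral_const_mul, setIntegral_const,
    smul_eq_mul] at h2
  have h3 : (vol g).real U ≤ V := ENNReal.toReal_le_of_le_ofReal hV hv
  nlinarith [mul_le_mul_of_nonneg_right h3 hε, mul_le_mul_of_nonneg_left h1.le hk]

theorem lncb (Tb : TbT) (hH : HEX) (hR : RGN) (h0 : RG0) (hA : ADP) (hN : NCM Tb) : LNCB Tb := by
  intro A hA0 w hw
  obtain ⟨κ, hκ, η₀, hη, hN⟩ := hN (mA (A + 2)) (by unfold mA; positivity) (4 * (exp 6 / w))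
    (by positivity)
  refine ⟨κ, hκ, η₀, hη, w / exp 6 / 8, by positivity, ?_⟩
  intro M _ _ _ _ _ g b d T η ε V r' F hcon hηη hT hε hV hr' hεV hcol hlow hvol U t₀ x r₀ hU hr h2 hx
  have r0 : 0 < r₀ := hr'.trans_le hr
  have q0 : 0 < r₀ ^ 2 := by positivity
  have hT0 : t₀ ≤ T := hU.mem_Icc.2
  have R := hR M g b d 0 T t₀ r₀ (w * r₀ ^ 3 / 4) F r0 (by linarith) hT0
  have low : ∀ W s, Sl b d (t₀ - r₀ ^ 2) (min T (t₀ + r₀ ^ 2)) W s → ∀ x ∈ W,
      -(3 / r₀ ^ 2) ≤ Sc (g s) x := fun W s hW z hz => by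
    have h3 : r₀ ^ 2 ≤ s := by linarith [hW.mem_Icc.1]
    refine le_trans (neg_le_neg ?_) (hlow W s (sl_up hW (by linarith) (min_le_left _ _))
      (q0.trans_le h3) z hz)
    gcongr
  obtain ⟨D, hD, hD'⟩ := hA M g b d T t₀ r₀ (A * r₀) κ _ F hcon r0 (by positivity) R
    fun W s hW y hy hNy ρ hρ => by
      have hs := hNy.1
      refine hN M g b d T η (t₀ - r₀ ^ 2) (min T (t₀ + r₀ ^ 2)) r₀ ρ s W y
        {u | Hist g b d (t₀ - r₀ ^ 2) (min T (t₀ + r₀ ^ 2)) (w * r₀ ^ 3 / 4) u} F hηη hT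
        (by linarith) (by linarith [hs.1]) (min_le_left _ _)
        (sl_down hW (by linarith [hs.1]) (by linarith [hs.2])) hy hρ.1 hρ.2 (by linarith [hs.2])
        (by linarith) low (fun u hu => ⟨hu.ht, fun W s hW z hz =>
          ⟨(hu.wb W s hW).pos z hz, (hu.wb W s hW).le z hz⟩⟩) (fun p hp hi => ?_) fun u hu z hz => ?_
      · have hk : 0 ≤ r₀ ^ 3 / (4 * (exp 6 / w)) := by positivity
        have hS : Sl b d 0 T (postS b d (t₀ - r₀ ^ 2)) (t₀ - r₀ ^ 2) :=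
          sl_post ⟨by linarith, by linarith⟩
        simp only [mul_div_assoc]
        refine hH M g b d 0 T _ _ ε (3 / r₀ ^ 2) _ _ F (by linarith)
          (lt_min (by linarith) (by linarith)) (min_le_left _ _) hε (by positivity)
          (fun t ht => hcol t ⟨by linarith [ht.1], ht.2.trans_le (min_le_left _ _)⟩) low
          (s0_comp (F := fun v => (√(1 + v ^ 2 * (r₀ ^ 3 / (4 * (exp 6 / w)))))⁻¹) hp fun z _ => ?_)
          (fun z _ => ⟨(wt_bd (mul_nonneg (sq_nonneg _) hk)).1,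
            (wt_bd (mul_nonneg (sq_nonneg _) hk)).2.1⟩) ?_
        · have h3 : 0 < 1 + p z ^ 2 * (r₀ ^ 3 / (4 * (exp 6 / w))) := by positivity
          exact ((contDiffAt_const.add ((contDiffAt_id.pow 2).mul contDiffAt_const)).sqrt
            h3.ne').inv (sqrt_pos.2 h3).ne'
        · have h3 := mass_le (F.met hS) (F.sl_cpt hS) hp hi hε hV (hvol _ _ hS) hk
          have h4 : exp (3 / r₀ ^ 2 * (min T (t₀ + r₀ ^ 2) - (t₀ - r₀ ^ 2))) ≤ exp 6 := by
            refine exp_le_exp.2 ?_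
            rw [div_mul_eq_mul_div, div_le_iff₀ q0]
            linarith [min_le_right T (t₀ + r₀ ^ 2)]
          have h5 : w / exp 6 / 8 * r' ^ 3 ≤ w / exp 6 / 8 * r₀ ^ 3 := by gcongr
          have h6 : exp 6 * (w / exp 6 / 8 * r₀ ^ 3 + r₀ ^ 3 / (4 * (exp 6 / w)) / 2) =
              w * (r₀ ^ 3 / 4) := by
            field_simp
            ring
          rw [← h6]
          refine (mul_le_mul_of_nonneg_left h3 (exp_pos _).le).trans
            (mul_le_mul h4 (by linarith) (by positivity) (exp_pos _).le)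
      · have h3 := (R.mono (A' := (A + 2) * r₀) (by linarith [hρ.2]) (R.lip hW hNy hz)).2 u hu
        rwa [mul_div_cancel_right₀ _ r0.ne'] at h3
  exact ⟨D, hD, hD' U t₀ x _ (by positivity)
    (h0 M g b d 0 T t₀ r₀ w U x F r0 (by linarith) hU hw hx)⟩

end Vale.Agent.P216HY
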