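import Vale.Agent.P216HY.KH
import Vale.Agent.P216C.Plan
import Vale.Agent.P216T.Glue
import Mathlib.Analysis.Convex.Contractible

/-!
Cusps of hyperbolic manifolds of finite volume, linearity of the groups of closed ones.
-/

set_option linter.all false
set_option maxSynthPendingDepth 3

open Set Filter Topology Metric Matrix MeasureTheory Module
open scoped Manifold ContDiff
open Vale.Agent.P216R Vale.Agent.P216FI Vale.Agent.P216C
open Vale.Agent.P216FL (sh)

namespace Vale.Agent.P216HY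

noncomputable section

variable {M : Type} [TopologicalSpace M] [ChartedSpace E3 M] [IsManifold 𝓘(ℝ, E3) ∞ M]
  {g : Ten E3 M} {U : Set M} {F : E3 → M}

theorem Dev.ori (h : Dev g U F) {V : Set M} (hV : IsOpen V) (ho : Ori V) {S : Set E3}
    (hS : IsPreconnected S) (hm : MapsTo F S V) {p q : E3} (hp : p ∈ S) (hq : q ∈ S)
    (e : F p = F q) : 0 < (md E3 F p).det * (md E3 F q).det := by
  obtain ⟨sg, ho⟩ := ho
  have h1 := hS.induction₂' (fun x y => 0 < sg (F x) * (md E3 F x).det * (sg (F y) * (md E3 F y).det))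
    (fun x hx => ((ho.loc F _ (h.ld.mono (hV.preimage h.continuous) (subset_univ _))
      (mapsTo_preimage F V) x (hm hx)).filter_mono nhdsWithin_le_nhds).mono
        fun y hy => ⟨by rwa [mul_comm], hy⟩)
    (fun x y z _ _ _ a b => by
      rcases mul_pos_iff.1 a with a | a <;> rcases mul_pos_iff.1 b with b | b
      exacts [mul_pos a.1 b.2, by linarith [a.2, b.1], by linarith [a.2, b.1],
        mul_pos_of_neg_of_neg a.1 b.2]) hp hq
  rw [e] at h1
  nlinarith [mul_self_nonneg (sg (F q))]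

/-- the dilation that raises heights by three -/
def up3 : SL := sec (mk 0 3)

theorem act_up3 (p : E3) : act up3 p = mk ((Real.exp 3 : ℝ) * zz p) (p 2 + 3) := by
  rw [up3, act_sec, mk_2, zz_mk, add_zero]

theorem nn_up3 (e : ℂ) (p : E3) :
    act (nn e) (act up3 p) = act up3 (sh (e.re / Real.exp 3) (e.im / Real.exp 3) p) := by
  rw [act_nn, act_up3, act_up3, zz_mk, mk_2]
  congr 1
  apply Complex.ext <;> simp [zz, -Complex.ofReal_exp] <;> field_simp

theorem lo_lt_up3 {h : SL} {q : E3} (e : pos h = act up3 q) {L : ℝ} :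
    lo h < Real.exp (-(L + 3)) ↔ L < q 2 := by
  rw [lo_lt_iff, e, act_up3, mk_2, add_lt_add_iff_right]

theorem ar_pos (B : Basis (Fin 2) ℝ ℂ) {s : ℝ} (hs : s ≠ 0) :
    0 < ar ((B 0).re / s, (B 0).im / s) ((B 1).re / s, (B 1).im / s) := by
  have h := (Complex.basisOneI.isUnit_det B).ne_zero
  simp [Basis.det_apply, det_fin_two, Basis.toMatrix_apply] at h
  refine abs_pos.2 fun e => h ?_
  field_simp at e
  linarith

theorem hyp_cusps : HYP := by
  intro X _ _ _ _ _ _ _ _ g hg hC hc hv ho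
  obtain ⟨x⟩ : Nonempty X := inferInstance
  obtain ⟨F, h, hr⟩ := exists_dev hg (hs_of_t2 _) hc hC isPreconnected_univ (mem_univ x)
  have ht : ∀ p q, F p = F q → ∃ γ ∈ deck F, act γ p = q := fun p q e => by
    obtain ⟨V, v1, v2, v3⟩ := ho _ ((isCompact_closedBall p (dist q p)).image h.continuous)
    exact h.trans hg (hs_of_t2 _) e (h.ori v1 v3 (convex_closedBall p _).isPreconnected
      (image_subset_iff.1 v2) (mem_closedBall_self dist_nonneg) (mem_closedBall.2 le_rfl) e)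
  obtain ⟨n, σ, B, b1, b2, b3⟩ := cusps h.kg (h.fv hv ht) neg_one_mem_deck
  have hop : ∀ j W, IsOpen W → IsOpen ((F ∘ act (σ j * up3)) '' W) := fun j W hW =>
    (h.comp _).ld.isOpen_image hW (subset_univ _)
  have key : ∀ i j (p q : E3), -3 < p 2 → -3 < q 2 →
      F (act (σ i * up3) p) = F (act (σ j * up3) q) →
      i = j ∧ ∃ e ∈ lat (deck F) (σ i), q = sh (e.re / Real.exp 3) (e.im / Real.exp 3) p := by
    intro i j p q hp hq e
    obtain ⟨γ, a, b⟩ := ht _ _ e
    have l : (1 : ℝ) = Real.exp (-(-3 + 3)) := by simp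
    obtain ⟨rfl, d, d1, d2⟩ := b2 γ a i j (σ i * up3 * sec p)
      (by rwa [l, lo_lt_up3 (q := p) (by rw [mul_assoc, inv_mul_cancel_left, act])])
      (by rwa [l, lo_lt_up3 (q := q) (by
        rw [← act_pos, ← act_pos, ← act, b, act_mul, act_inv_act])])
    refine ⟨rfl, d, d1, act_injective up3 ?_⟩
    have : act ((σ i)⁻¹ * γ * σ i) (act up3 p) = act up3 q := by
      rw [act_mul, act_mul, ← act_mul (σ i), b, act_mul, act_inv_act]
    rw [← nn_up3, ← this]
    rcases d2 with k | k <;> rw [k]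
    exact act_neg _ _
  refine ⟨n, fun j => F ∘ act (σ j * up3), fun j => ((B j 0).re / Real.exp 3, (B j 0).im / Real.exp 3),
    fun j => ((B j 1).re / Real.exp 3, (B j 1).im / Real.exp 3), fun j => ⟨(h.comp _).ld.mono
      (isOpen_slab isOpen_Ioi) (subset_univ _), mapsTo_univ _ _, fun p _ => congrFun (h.comp _).iso p,
      fun p hp q hq => ⟨fun e => ?_, ?_⟩, ar_pos _ (Real.exp_ne_zero 3)⟩,
    fun i j hij => disjoint_left.2 fun _ ⟨p, hp, a⟩ ⟨q, hq, b⟩ =>
      hij (key i j p q hp hq (a.trans b.symm)).1, fun L _ => ?_, fun j L hL => ?_⟩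
  · obtain ⟨-, d, d1, rfl⟩ := key j j p q hp hq e
    rw [← b1, Submodule.mem_span_range_iff_exists_fun] at d1
    obtain ⟨c, rfl⟩ := d1
    refine ⟨c 0, c 1, ?_⟩
    congr 1 <;> simp <;> ring
  · rintro ⟨a, b, rfl⟩
    have d1 : a • B j 0 + b • B j 1 ∈ lat (deck F) (σ j) := b1 j ▸ add_mem
      (Submodule.smul_mem _ _ (Submodule.subset_span ⟨0, rfl⟩))
      (Submodule.smul_mem _ _ (Submodule.subset_span ⟨1, rfl⟩))
    have d2 := mem_lat.1 d1 (act (σ j * up3) p)
    rw [act_mul, act_mul, act_mul, act_inv_act, nn_up3, ← act_mul, ← act_mul] at d2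
    refine d2.symm.trans (congrArg (fun q => F (act (σ j * up3) q)) ?_)
    congr 1 <;> simp <;> ring
  · obtain ⟨R, hR⟩ := b3 _ (Real.exp_pos (-(L + 3)))
    refine ((isCompact_sl R).image (h.continuous.comp continuous_pos)).of_isClosed_subset
      (isOpen_iUnion fun j => hop j _ (isOpen_slab isOpen_Ioi)).isClosed_compl fun y hy => ?_
    obtain ⟨p, rfl⟩ : y ∈ range F := hr ▸ mem_univ y
    obtain ⟨γ, a, b | ⟨j, b⟩⟩ := hR (sec p)
    · exact ⟨_, b, a p⟩
    · refine (hy (mem_iUnion.2 ⟨j, act (σ j * up3)⁻¹ (act γ p), (lo_lt_up3 ?_).1 b, ?_⟩)).elim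
      · rw [_root_.mul_inv_rev, act_mul, act_act_inv, ← act_pos]
        rfl
      · exact (congrArg F (act_act_inv _ _)).trans (a p)
  · refine isOpen_compl_iff.1 (isOpen_iff_forall_mem_open.2 fun y hy => ?_)
    by_cases k : y ∈ (F ∘ act (σ j * up3)) '' slab (Ioi (-3))
    · obtain ⟨q, hq, rfl⟩ := k
      refine ⟨_, ?_, hop j _ (isOpen_slab (isOpen_Ioo (a := -3) (b := L))),
        q, ⟨hq, lt_of_not_ge fun e => hy ⟨q, e, rfl⟩⟩, rfl⟩
      rintro _ ⟨p, hp, rfl⟩ ⟨r, hr, e⟩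
      obtain ⟨-, d, -, rfl⟩ := key j j p r hp.1 (lt_of_lt_of_le (by linarith) hr) e.symm
      exact hp.2.not_ge hr
    obtain ⟨p, rfl⟩ : y ∈ range F := hr ▸ mem_univ y
    rw [← act_act_inv (σ j * up3) p] at k hy ⊢
    generalize act (σ j * up3)⁻¹ p = p at k hy ⊢
    have c := continuous_sec
    refine ⟨_, ?_, hop j _ (isOpen_lt (continuous_fr'.comp (f := fun r => (sec r)⁻¹ * sec p)
      (by fun_prop)) (continuous_const (y := 3))), p, ?_, rfl⟩
    · rintro _ ⟨r, r1, rfl⟩ ⟨q, hq, e⟩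
      obtain ⟨γ, a, b⟩ := ht _ _ e.symm
      have a1 := lo_mul ((σ j * up3)⁻¹ * γ * (σ j * up3) * sec r) ((sec r)⁻¹ * sec p)
      rw [mul_assoc _ (sec r), mul_inv_cancel_left, lo_pos_eq (_ * sec r), ← act, act_mul, act_mul, b,
        act_inv_act] at a1
      have a2 : Real.exp (-q 2) ≤ 1 := Real.exp_le_one_iff.2 (neg_nonpos.2 (hL.trans hq))
      have a3 : fr ((sec r)⁻¹ * sec p : SL) < 3 := r1
      refine k ⟨act ((σ j * up3)⁻¹ * γ * (σ j * up3)) p, lo_lt_iff.1 ?_, ?_⟩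
      · exact (a1.trans (mul_le_of_le_one_left (fr_nonneg _) a2)).trans_lt
          (a3.trans_le ((by norm_num : (3 : ℝ) ≤ - -3 + 1).trans (Real.add_one_le_exp _)))
      · rw [Function.comp, act_mul ((σ j * up3)⁻¹ * γ), act_mul (σ j * up3)⁻¹, act_act_inv, a]
    · show fr ((sec p)⁻¹ * sec p : SL) < 3
      rw [inv_mul_cancel]
      exact fr_one.trans_lt (by norm_num)

/-- hermitian matrices -/
def hm : (Fin 4 → ℝ) →ₗ[ℝ] M2 where
  toFun x := !![x 0, x 1 + x 2 * Complex.I; x 1 - x 2 * Complex.I, x 3]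
  map_add' x y := by ext i j; fin_cases i <;> fin_cases j <;> simp <;> ring
  map_smul' c x := by ext i j; fin_cases i <;> fin_cases j <;> simp <;> ring

/-- coordinates of hermitian matrices -/
def hc : M2 →ₗ[ℝ] (Fin 4 → ℝ) where
  toFun Y := ![(Y 0 0).re, (Y 0 1).re, (Y 0 1).im, (Y 1 1).re]
  map_add' x y := by ext i; fin_cases i <;> simp
  map_smul' c x := by ext i; fin_cases i <;> simp

theorem hc_hm (x : Fin 4 → ℝ) : hc (hm x) = x := by
  ext i; fin_cases i <;> simp [hc, hm]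

theorem hm_star (x : Fin 4 → ℝ) : (hm x)ᴴ = hm x := by
  ext i j; fin_cases i <;> fin_cases j <;> simp [hm, sub_eq_add_neg]

theorem hm_hc {Y : M2} (h : Yᴴ = Y) : hm (hc Y) = Y := by
  have h0 := congrArg Complex.im (congrFun (congrFun h 0) 0)
  have h1 := congrFun (congrFun h 1) 0
  have h2 := congrArg Complex.im (congrFun (congrFun h 1) 1)
  simp at h0 h1 h2
  ext i j
  fin_cases i <;> fin_cases j <;> apply Complex.ext <;> simp [hc, hm, ← h1] <;> linarith

theorem exists_rep : ∃ ρ : SL →* GL (Fin 4) ℝ, ρ (-1) = 1 ∧ ∀ γ, ρ γ = 1 → ∀ p, act γ p = p := by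
  have h1 : ∀ (γ : SL) (Y : M2), Yᴴ = Y → hm (hc (γ * Y * (γ : M2)ᴴ)) = γ * Y * (γ : M2)ᴴ :=
    fun γ Y h => hm_hc (by simp [h, mul_assoc])
  let T : SL →* Module.End ℝ (Fin 4 → ℝ) :=
    { toFun := fun γ => hc ∘ₗ LinearMap.mulRight ℝ (γ : M2)ᴴ ∘ₗ LinearMap.mulLeft ℝ (γ : M2) ∘ₗ hm
      map_one' := LinearMap.ext fun x => by simp [hc_hm]
      map_mul' := fun γ δ => LinearMap.ext fun x => by
        have := h1 δ _ (hm_star x)
        simp only [LinearMap.comp_apply, Module.End.mul_apply, LinearMap.mulRight_apply,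
          LinearMap.mulLeft_apply, this]
        simp [mul_assoc] }
  refine ⟨((LinearMap.toMatrixAlgEquiv' (R := ℝ) (n := Fin 4)).toMulEquiv.toMonoidHom.comp
    T).toHomUnits, Units.ext ?_, fun γ e p => ?_⟩
  · have : T (-1) = 1 := LinearMap.ext fun x => by simp [T, hc_hm]
    simp [this]
  · have h2 : T γ = 1 := LinearMap.toMatrixAlgEquiv'.injective
      ((congrArg Units.val e).trans (map_one _).symm)
    have h3 : (XX (sec p))ᴴ = XX (sec p) := by simp [XX]
    have h4 : hc (γ * hm (hc (XX (sec p))) * (γ : M2)ᴴ) = hc (XX (sec p)) :=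
      LinearMap.congr_fun h2 _
    have h5 := congrArg hm h4
    rw [hm_hc h3, h1 _ _ h3, ← XX_mul, ← pos_eq_iff, pos_sec] at h5
    exact h5

/-- the action by permutations -/
def perm : SL →* Equiv.Perm E3 where
  toFun γ := ⟨act γ, act γ⁻¹, act_inv_act γ, act_act_inv γ⟩
  map_one' := Equiv.ext act_one
  map_mul' γ δ := Equiv.ext (act_mul γ δ)

theorem Dev.quo (h : Dev g U F) (hr : range F = U)
    (ht : ∀ p q, F p = F q → ∃ γ ∈ deck F, act γ p = q) :
    P216T.Quo ((deck F).map perm) (U.codRestrict F h.mem) := by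
  refine ⟨P216T.loc_of (h.continuous.codRestrict _)
    (IsOpenMap.codRestrict (fun W hW => h.ld.isOpen_image hW (subset_univ _)) _) fun p => ?_,
    fun y => ?_, ?_, ?_, fun p q e => ?_, ?_⟩
  · obtain ⟨W, w1, w2⟩ := h.loc_inj p
    obtain ⟨V, v1, v2, v3⟩ := _root_.mem_nhds_iff.1 w1
    exact ⟨V, v2, v3, fun a ha b hb e => w2 (v1 ha) (v1 hb) (congrArg Subtype.val e)⟩
  · obtain ⟨p, e⟩ : y.1 ∈ range F := hr.symm ▸ y.2
    exact ⟨p, Subtype.ext e⟩
  · rintro ⟨_, γ, -, rfl⟩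
    exact (cd_act γ).continuous
  · rintro ⟨_, γ, a, rfl⟩ p
    exact Subtype.ext (a p)
  · obtain ⟨γ, a, b⟩ := ht p q (congrArg Subtype.val e)
    exact ⟨⟨_, γ, a, rfl⟩, b⟩
  · rintro ⟨_, γ, a, rfl⟩ p e
    exact Subtype.ext (Equiv.ext (act_of_not_nt (h.free a e)))

theorem hyp_lin : HLIN := by
  rintro G _ M _ _ _ U g ⟨⟨⟨X, _, _, P, hX, hP⟩, ho⟩, hU, hK, hH, hc⟩ hg hk
  haveI := hX.conn
  obtain ⟨x⟩ : Nonempty X := inferInstance
  obtain ⟨F, h, hr⟩ := exists_dev hg hH hk (hg.cpl hK) hc (P x).2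
  have ht : ∀ p q, F p = F q → ∃ γ ∈ deck F, act γ p = q := fun p q e =>
    h.trans hg hH e (h.ori hU ho isPreconnected_univ (fun p _ => h.mem p) trivial trivial e)
  have hq := h.quo hr ht
  obtain ⟨p, hp⟩ := hq.surj (P x)
  obtain ⟨f, f1, f2, f3⟩ := hX.lift _ _ _ hq.cov P hP.continuous x p hp
  obtain ⟨k, k1, k2, k3⟩ := (P216T.SC.of_simplyConnected E3).lift _ _ _ hP.cov _ hq.continuous p x
    hp.symm
  have h1 : k ∘ f = id := hP.cov.eq_of_comp_eq (k1.comp f1) continuous_id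
    (funext fun y => (k3 _).trans (f3 y)) x (by rw [Function.comp, f2, k2, id])
  have h2 : ∀ a : G, ∃ γ ∈ deck F, ∀ y, f (a • y) = act γ (f y) := fun a => by
    obtain ⟨γ, c, d⟩ := ht (f x) (f (a • x))
      (congrArg Subtype.val ((f3 x).trans ((hP.inv a x).symm.trans (f3 _).symm)))
    exact ⟨γ, c, congrFun (hq.cov.eq_of_comp_eq (g₁ := fun y => f (a • y))
      (g₂ := fun y => act γ (f y)) (f1.comp (hP.cont a)) ((cd_act γ).continuous.comp f1)
      (funext fun y => ((f3 _).trans ((hP.inv a y).trans (f3 y).symm)).trans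
        (Subtype.ext (c (f y)).symm)) x d.symm)⟩
  choose γ c1 c2 using h2
  obtain ⟨ρ, r1, r2⟩ := exists_rep
  refine ⟨MonoidHom.mk' (fun a => ρ (γ a)) fun a b => ?_, (injective_iff_map_eq_one _).2 fun a e => ?_⟩
  · have h3 := h.free (mul_mem (inv_mem (c1 (a * b))) (mul_mem (c1 a) (c1 b))) (p := f x) (by
      rw [act_mul, act_mul, ← c2, ← c2, ← mul_smul, c2, act_inv_act])
    rw [← map_mul, ← inv_mul_eq_one, ← map_inv, ← map_mul]
    rcases not_nt.1 h3 with e | e <;> rw [e]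
    exacts [map_one ρ, r1]
  · have h4 : Function.LeftInverse k f := congrFun h1
    refine hP.free a x (h4.injective ?_)
    rw [c2, r2 _ e]

end

end Vale.Agent.P216HY
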