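import Vale.Agent.P216HY.Thin
import Mathlib.Algebra.Module.ZLattice.Basic
import Mathlib.LinearAlgebra.Complex.FiniteDimensional

/-!
Cusps of a discrete group of finite covolume.
-/

set_option linter.all false

open Matrix Complex Filter Topology Module Submodule

namespace Vale.Agent.P216HY

noncomputable section

variable {Γ : Subgroup SL} {c : ℝ}

/-- the inverse of the height -/
def lo (h : SL) : ℝ := normSq (h 1 0) + normSq (h 1 1)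

/-- the horizontal position divided by the height -/
def up (h : SL) : ℂ := h 0 0 * (starRingEnd ℂ) (h 1 0) + h 0 1 * (starRingEnd ℂ) (h 1 1)

theorem lo_nonneg (h : SL) : 0 ≤ lo h := add_nonneg (normSq_nonneg _) (normSq_nonneg _)

theorem fr_lo (h : SL) : fr h * lo h = 1 + normSq (up h) + lo h ^ 2 := by
  have h1 := congrArg normSq (det2 h)
  simp only [fr, lo, up, normSq_apply, sub_re, sub_im, mul_re, mul_im, add_re, add_im, conj_re,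
    conj_im, one_re, one_im] at h1 ⊢
  linear_combination h1

theorem lo_pos (h : SL) : 0 < lo h := by
  refine (lo_nonneg h).lt_of_ne fun e => ?_
  have := fr_lo h
  rw [← e] at this
  linarith [normSq_nonneg (up h)]

theorem lo_one : lo 1 = 1 := by simp [lo]

theorem lo_mul (A B : SL) : lo (A * B) ≤ lo A * fr B := by
  have := fr_mul !![0, 0; A 1 0, A 1 1] B
  simpa [fr, lo, mul_ent, mul_apply] using this

theorem lo_tri {u : SL} (hu : u 1 0 = 0) (k : SL) : lo (u * k) = normSq (u 1 1) * lo k := by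
  simp only [lo, mul_ent, hu, zero_mul, zero_add, map_mul, mul_add]

theorem lo_nn (e : ℂ) (k : SL) : lo (nn e * k) = lo k := by
  rw [lo_tri (nn10 e), nn11, map_one, one_mul]

theorem up_nn (e : ℂ) (k : SL) : up (nn e * k) = up k + e * lo k := by
  simp only [lo, up, mul_ent, nn00, nn01, nn10, nn11, ofReal_add, ← mul_conj, zero_mul, zero_add,
    one_mul]
  ring

theorem D_nn (k : SL) (b : ℂ) : D k (nn b) = 2 + normSq b * lo k ^ 2 := by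
  have h := det2 k
  have e0 : (k⁻¹ * nn b * k) 0 0 = 1 + b * (k 1 1 * k 1 0) := by
    simp only [mul_ent, inv00, inv01, nn00, nn01, nn10, nn11]; linear_combination h
  have e1 : (k⁻¹ * nn b * k) 0 1 = b * k 1 1 ^ 2 := by
    simp only [mul_ent, inv00, inv01, nn00, nn01, nn10, nn11]; ring
  have e2 : (k⁻¹ * nn b * k) 1 0 = -(b * k 1 0 ^ 2) := by
    simp only [mul_ent, inv10, inv11, nn00, nn01, nn10, nn11]; ring
  have e3 : (k⁻¹ * nn b * k) 1 1 = 1 - b * (k 1 1 * k 1 0) := by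
    simp only [mul_ent, inv10, inv11, nn00, nn01, nn10, nn11]; linear_combination h
  rw [D, fr, e0, e1, e2, e3, normSq_add, normSq_sub, normSq_neg]
  simp only [map_mul, map_pow, map_one, lo]
  ring

theorem conj_nn10 (u : SL) (b : ℂ) : (u * nn b * u⁻¹) 1 0 = -b * u 1 0 ^ 2 := by
  simp only [mul_ent, inv00, inv10, nn00, nn01, nn10, nn11]; ring

theorem dg00 {μ : ℂ} (h : μ ≠ 0) : dg μ h 0 0 = μ := rfl

theorem dg_nn {μ : ℂ} (h : μ ≠ 0) (b : ℂ) : (dg μ h)⁻¹ * nn b * dg μ h = nn (b / μ ^ 2) := by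
  refine sl_ext ?_ ?_ ?_ ?_ <;>
    simp only [mul_ent, inv00, inv01, inv10, inv11, nn00, nn01, nn10, nn11] <;>
    simp [dg, h] <;> field_simp

theorem Pb.D {P f g : SL} (h : Pb P f) (hg : Commute f g) (k : SL) :
    D (P * k) g = 2 + (D P g - 2) * lo k ^ 2 := by
  obtain ⟨b, hb⟩ := h g hg
  have : ∀ k, P216HY.D (P * k) g = 2 + normSq b * lo k ^ 2 := fun k => by
    rcases hb with e | e <;> rw [D_mul, e]
    exacts [D_nn k b, by rw [D_neg, D_nn]]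
  rw [this, ← mul_one P, this, lo_one]
  ring

/-- the thin part of the centraliser of `f` is the standard horoball moved by `σ` -/
structure Cu (Γ : Subgroup SL) (c : ℝ) (f σ : SL) : Prop where
  mem : f ∈ Γ
  nt : Nt f
  pb : Pb σ f
  th : ∀ h, h ∈ Th Γ c f ↔ lo (σ⁻¹ * h) < 1

theorem lt_iff_aux {m l c β : ℝ} (hc : 2 < c) (hm : 0 < m) (hl : 0 < l) (e : m ^ 2 * (c - 2) = β) :
    2 + β * l ^ 2 < c ↔ m * l < 1 := by
  rw [← e, ← sq_lt_one_iff₀ (mul_pos hm hl).le]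
  constructor <;> intro k <;> nlinarith

theorem KG.exists_cu (h : KG Γ) (hc : 2 < c) {P f : SL} (h1 : f ∈ Γ) (h2 : Nt f) (hP : Pb P f) :
    ∃ σ, Cu Γ c f σ := by
  obtain ⟨g, ⟨⟨g1, g0⟩, g2, g3⟩, g4⟩ := Set.exists_min_image
    {g | (g ∈ Γ ∧ D P g ≤ D P f) ∧ Nt g ∧ Commute f g} (D P)
    ((h.fin P _).subset fun _ e => e.1) ⟨f, ⟨h1, le_rfl⟩, h2, Commute.refl f⟩
  have g5 : 0 < (D P g - 2) / (c - 2) :=
    div_pos (sub_pos.2 (lt_of_not_ge fun e => h.free g g1 P e g2)) (sub_pos.2 hc)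
  have m1 := Real.sqrt_pos.2 g5
  have m2 : ((√(√((D P g - 2) / (c - 2))) : ℝ) : ℂ) ≠ 0 := ofReal_ne_zero.2 (Real.sqrt_pos.2 m1).ne'
  refine ⟨P * dg _ m2, h1, h2, fun x hx => ?_, fun x => ?_⟩
  · obtain ⟨b, hb⟩ := hP x hx
    rw [show (P * dg _ m2)⁻¹ * x * (P * dg _ m2) = (dg _ m2)⁻¹ * (P⁻¹ * x * P) * dg _ m2 by group]
    rcases hb with e | e <;> rw [e]
    exacts [⟨_, Or.inl (dg_nn m2 b)⟩, ⟨_, Or.inr (by rw [mul_neg, neg_mul, dg_nn])⟩]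
  · rw [_root_.mul_inv_rev, mul_assoc, lo_tri (by rw [inv10]; exact neg_zero), inv11,
      dg00, normSq_ofReal, Real.mul_self_sqrt m1.le,
      ← lt_iff_aux hc m1 (lo_pos _) (β := D P g - 2)
        (by rw [Real.sq_sqrt g5.le, div_mul_cancel₀ _ (sub_pos.2 hc).ne'])]
    refine ⟨fun ⟨k, k1, k2, k3, k4⟩ => ?_, fun e => ⟨g, g1, g2, g3, ?_⟩⟩
    · rw [← mul_inv_cancel_left P x, hP.D k3] at k4
      have : D P g ≤ D P k := by
        by_cases e : D P k ≤ D P f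
        exacts [g4 k ⟨⟨k1, e⟩, k2, k3⟩, g0.trans (not_le.1 e).le]
      nlinarith [sq_nonneg (lo (P⁻¹ * x))]
    · rwa [← mul_inv_cancel_left P x, hP.D g3]

theorem Cu.par {f σ : SL} (h : Cu Γ c f σ) :
    ∃ b, b ≠ 0 ∧ (σ⁻¹ * f * σ = nn b ∨ σ⁻¹ * f * σ = -nn b) := by
  obtain ⟨b, hb⟩ := h.pb f (Commute.refl f)
  have hn := (nt_conj σ).2 h.nt
  refine ⟨b, ?_, hb⟩
  rcases hb with e | e <;> rw [e] at hn
  exacts [nt_nn.1 hn, nt_nn.1 (nt_neg.1 hn)]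

/-- precise invariance of the horoball -/
theorem Cu.inv {f σ : SL} (h : Cu Γ c f σ) (hk : KG Γ) (hm : Mg Γ c) {γ x : SL} (hγ : γ ∈ Γ)
    (h1 : x ∈ Th Γ c f) (h2 : γ * x ∈ Th Γ c f) :
    ∃ e, σ⁻¹ * γ * σ = nn e ∨ σ⁻¹ * γ * σ = -nn e := by
  obtain ⟨b, b0, hb⟩ := h.par
  obtain ⟨d, hd⟩ := h.pb _ (hm.comm h2 (th_conj hγ h1))
  have a1 : (σ⁻¹ * (γ * f * γ⁻¹) * σ) 1 0 = 0 := by
    rcases hd with e | e <;> rw [e]
    exacts [rfl, neg_zero]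
  rw [show σ⁻¹ * (γ * f * γ⁻¹) * σ = σ⁻¹ * γ * σ * (σ⁻¹ * f * σ) * (σ⁻¹ * γ * σ)⁻¹ by group] at a1
  have a2 := conj_mem_cj (σ := σ).2 h.mem
  refine (hk.cj σ).par_norm (conj_mem_cj.2 hγ) b0 (hb.imp (fun e => by rwa [← e]) fun e => by rwa [← e]) ?_
  have a3 : -b * (σ⁻¹ * γ * σ) 1 0 ^ 2 = 0 := by
    rcases hb with e | e <;> rw [e] at a1
    · rwa [conj_nn10] at a1
    · rwa [mul_neg, neg_mul, neg_ent, neg_eq_zero, conj_nn10] at a1
  exact pow_eq_zero_iff two_ne_zero |>.1 ((mul_eq_zero.1 a3).resolve_left (neg_ne_zero.2 b0))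

/-- the translation lattice -/
def lat (Γ : Subgroup SL) (σ : SL) : Submodule ℤ ℂ :=
  AddSubgroup.toIntSubmodule
    { carrier := {e | nn e ∈ cj Γ σ}
      add_mem' := fun {a b} ha hb => by
        show nn (a + b) ∈ cj Γ σ
        rw [nn_add]; exact mul_mem ha hb
      zero_mem' := by
        show nn 0 ∈ cj Γ σ
        rw [nn_zero]; exact one_mem _
      neg_mem' := fun {a} ha => by
        show nn (-a) ∈ cj Γ σ
        rw [nn_neg]; exact inv_mem ha }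

theorem mem_lat {σ : SL} {e : ℂ} : e ∈ lat Γ σ ↔ σ * nn e * σ⁻¹ ∈ Γ := Iff.rfl

theorem mem_lat_of (h1 : -1 ∈ Γ) {σ γ : SL} (hγ : γ ∈ Γ) {e : ℂ}
    (h : σ⁻¹ * γ * σ = nn e ∨ σ⁻¹ * γ * σ = -nn e) : e ∈ lat Γ σ := by
  rw [mem_lat]
  rcases h with k | k
  · rwa [← k, show σ * (σ⁻¹ * γ * σ) * σ⁻¹ = γ by group]
  · rw [← neg_eq_iff_eq_neg.2 k, mul_neg, neg_mul, show σ * (σ⁻¹ * γ * σ) * σ⁻¹ = γ by group,
      ← neg_one_mul]
    exact mul_mem h1 hγ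

theorem Cu.le {f σ : SL} (h : Cu Γ c f σ) {e : ℂ} (he : e ∈ lat Γ σ) (e0 : e ≠ 0) :
    c ≤ 2 + normSq e := by
  by_contra k
  have a1 : Commute (σ⁻¹ * f * σ) (nn e) := by
    have : ∀ b, Commute (nn b) (nn e) := fun b => by
      rw [Commute, SemiconjBy, ← nn_add, ← nn_add, add_comm]
    obtain ⟨b, -, k | k⟩ := h.par <;> rw [k]
    exacts [this b, (this b).neg_left]
  have a2 := (h.th σ).1 ⟨_, mem_lat.1 he, (nt_conj' σ).2 (nt_nn.2 e0),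
    by simpa [mul_assoc] using comm_conj a1 σ, by
      have := D_conj σ 1 (nn e)
      rw [mul_one, D_nn, lo_one] at this
      linarith⟩
  rw [inv_mul_cancel, lo_one] at a2
  exact lt_irrefl _ a2

theorem Cu.discrete {f σ : SL} (h : Cu Γ c f σ) (hc : 2 < c) : DiscreteTopology (lat Γ σ) := by
  refine DiscreteTopology.of_forall_le_norm (Real.sqrt_pos.2 (sub_pos.2 hc)) fun x hx => ?_
  have := h.le x.2 fun e => hx (Subtype.ext e)
  rw [normSq_eq_norm_sq] at this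
  exact Real.sqrt_le_iff.2 ⟨norm_nonneg _, by rw [coe_norm]; linarith⟩

theorem Cu.span {f σ : SL} (h : Cu Γ c f σ) (hk : KG Γ) (hv : FV Γ) (hm : Mg Γ c) (hc : 2 < c)
    (h1 : -1 ∈ Γ) : span ℝ (lat Γ σ : Set ℂ) = ⊤ := by
  by_contra k
  obtain ⟨φ, p1, p2⟩ := exists_le_ker_of_lt_top _ (lt_top_iff_ne_top.2 k)
  obtain ⟨C, c0, hC⟩ := (LinearMap.toContinuousLinearMap φ).bound
  obtain ⟨w, hw⟩ := LinearMap.range_eq_top.1
    ((eq_bot_or_eq_top (LinearMap.range φ)).resolve_left (LinearMap.range_eq_bot.not.2 p1)) (4 * C)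
  have l2 : lo (dg 2 two_ne_zero) = 1 / 4 := by norm_num [lo, dg]
  have l3 : ∀ z, lo (σ⁻¹ * (σ * nn z * dg 2 two_ne_zero)) = 1 / 4 := fun z => by
    rw [mul_assoc, inv_mul_cancel_left, lo_nn, l2]
  refine Set.infinite_range_of_injective
    (f := fun n : ℤ => σ * nn ((n : ℝ) • w) * dg 2 two_ne_zero) (fun m n e => ?_)
    (hv (min 3 (2 + (c - 2) / 16)) (lt_min (by norm_num) (by linarith)) _ ?_)
  · have a1 : (m : ℝ) • w = (n : ℝ) • w :=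
      (congrArg (fun x : SL => x 0 1) (mul_left_cancel (mul_right_cancel e)) :)
    have a2 := congrArg φ a1
    rw [map_smul, map_smul, hw, smul_eq_mul, smul_eq_mul] at a2
    exact_mod_cast mul_right_cancel₀ (by positivity) a2
  rintro _ ⟨m, rfl⟩ _ ⟨n, rfl⟩ γ hγ e
  obtain ⟨e1, e2⟩ := lt_min_iff.1 e
  obtain ⟨d, hd⟩ := h.inv hk hm hγ ((h.th _).2 (by rw [l3 ((n : ℝ) • w)]; norm_num))
    ((h.th _).2 (by
      have := lo_mul (σ⁻¹ * (σ * nn ((m : ℝ) • w) * dg 2 two_ne_zero))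
        ((σ * nn ((m : ℝ) • w) * dg 2 two_ne_zero)⁻¹ * γ *
          (σ * nn ((n : ℝ) • w) * dg 2 two_ne_zero))
      rw [l3, mul_assoc σ⁻¹, mul_assoc _ γ, mul_inv_cancel_left] at this
      rw [mul_assoc _ γ] at e1
      linarith))
  have a1 := mem_lat_of h1 hγ hd
  have a2 : fr ((σ * nn ((m : ℝ) • w) * dg 2 two_ne_zero)⁻¹ * γ *
      (σ * nn ((n : ℝ) • w) * dg 2 two_ne_zero) : SL) =
      2 + normSq (-((m : ℝ) • w) + d + (n : ℝ) • w) / 16 := by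
    have : (σ * nn ((m : ℝ) • w) * dg 2 two_ne_zero)⁻¹ * γ *
      (σ * nn ((n : ℝ) • w) * dg 2 two_ne_zero) = (dg 2 two_ne_zero)⁻¹ *
        ((nn ((m : ℝ) • w))⁻¹ * (σ⁻¹ * γ * σ) * nn ((n : ℝ) • w)) * dg 2 two_ne_zero := by group
    rw [this, ← D]
    rcases hd with e | e <;> rw [e]
    · rw [← nn_neg, ← nn_add, ← nn_add, D_nn, l2]; ring
    · rw [mul_neg, neg_mul, D_neg, ← nn_neg, ← nn_add, ← nn_add, D_nn, l2]; ring
  rw [a2] at e1 e2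
  have a3 := hC (-((m : ℝ) • w) + d + (n : ℝ) • w)
  have a4 : ‖-((m : ℝ) • w) + d + (n : ℝ) • w‖ < 4 :=
    lt_of_pow_lt_pow_left₀ 2 (by norm_num) (by rw [← normSq_eq_norm_sq]; linarith)
  rw [LinearMap.coe_toContinuousLinearMap', map_add, map_add, map_neg, map_smul, map_smul, hw,
    show φ d = 0 from p2 (subset_span a1), add_zero, ← neg_smul, ← add_smul, smul_eq_mul, norm_mul,
    Real.norm_of_nonneg (by positivity : 0 ≤ 4 * C), Real.norm_eq_abs] at a3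
  have a5 : |-(m : ℝ) + n| < 1 := by nlinarith
  obtain rfl : m = n := by
    have : |-m + n| < 1 := by exact_mod_cast a5
    have := Int.abs_lt_one_iff.1 this
    omega
  refine ⟨rfl, ?_⟩
  obtain rfl : d = 0 := by_contra fun d0 => by
    rw [neg_add_cancel_comm] at e2
    linarith [h.le a1 d0]
  rw [← nt_conj σ, not_nt]
  simpa only [nn_zero] using hd

theorem Cu.basis {f σ : SL} (h : Cu Γ c f σ) (hk : KG Γ) (hv : FV Γ) (hm : Mg Γ c) (hc : 2 < c)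
    (h1 : -1 ∈ Γ) : ∃ B : Basis (Fin 2) ℝ ℂ, Submodule.span ℤ (Set.range B) = lat Γ σ := by
  haveI := h.discrete hc
  haveI : IsZLattice ℝ (lat Γ σ) := ⟨h.span hk hv hm hc h1⟩
  haveI := ZLattice.module_free ℝ (lat Γ σ)
  haveI := ZLattice.module_finite ℝ (lat Γ σ)
  exact ⟨_, (finBasisOfFinrankEq ℤ (lat Γ σ)
    ((ZLattice.rank ℝ _).trans finrank_real_complex)).ofZLatticeBasis_span ℝ⟩

theorem slab_le {σ : SL} {B : Basis (Fin 2) ℝ ℂ} (hB : span ℤ (Set.range B) = lat Γ σ) {l : ℝ}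
    (hl : 0 < l) : ∃ R, ∀ x, l ≤ lo (σ⁻¹ * x) → lo (σ⁻¹ * x) ≤ 1 → ∃ γ ∈ Γ, fr (γ * x : SL) ≤ R := by
  refine ⟨fr σ * ((2 + (∑ i, ‖B i‖) ^ 2) / l), fun x h1 h2 => ?_⟩
  set k := σ⁻¹ * x
  have k0 := lo_pos k
  set e : ℂ := -(ZSpan.floor B (up k / lo k) : ℂ) with he
  refine ⟨σ * nn e * σ⁻¹, mem_lat.1 (hB ▸ neg_mem (ZSpan.floor B _).2), ?_⟩
  rw [mul_assoc, mul_assoc]
  refine (fr_mul' _ _).trans (mul_le_mul_of_nonneg_left ?_ (fr_nonneg _))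
  have a1 := fr_lo (nn e * k)
  have a2 : up (nn e * k) = ZSpan.fract B (up k / lo k) * lo k := by
    have : (lo k : ℂ) ≠ 0 := ofReal_ne_zero.2 k0.ne'
    rw [up_nn, ZSpan.fract_apply, he]
    field_simp
    ring
  have a3 := pow_le_pow_left₀ (norm_nonneg _) (ZSpan.norm_fract_le B (up k / lo k)) 2
  rw [a2, lo_nn, map_mul, normSq_ofReal, normSq_eq_norm_sq] at a1
  have a4 : lo k * lo k ≤ 1 := mul_le_one₀ h2 k0.le h2
  have a5 := mul_le_mul a3 a4 (by positivity) (sq_nonneg _)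
  rw [le_div_iff₀ hl]
  have a6 := mul_le_mul_of_nonneg_left h1 (fr_nonneg (nn e * k : SL))
  nlinarith

/-- the cusps -/
theorem cusps (hk : KG Γ) (hv : FV Γ) (h1 : -1 ∈ Γ) :
    ∃ (n : ℕ) (σ : Fin n → SL) (B : Fin n → Basis (Fin 2) ℝ ℂ),
      (∀ j, span ℤ (Set.range (B j)) = lat Γ (σ j)) ∧
      (∀ γ ∈ Γ, ∀ i j x, lo ((σ i)⁻¹ * x) < 1 → lo ((σ j)⁻¹ * (γ * x)) < 1 → i = j ∧
        ∃ e ∈ lat Γ (σ i), (σ i)⁻¹ * γ * σ i = nn e ∨ (σ i)⁻¹ * γ * σ i = -nn e) ∧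
      ∀ l > 0, ∃ R, ∀ x, ∃ γ ∈ Γ, fr (γ * x : SL) ≤ R ∨ ∃ j, lo ((σ j)⁻¹ * (γ * x)) < l := by
  obtain ⟨c, hc, hm⟩ := margulis
  replace hm : Mg Γ c := hm Γ hk
  obtain ⟨F, f1, f2, f3⟩ := hk.cover hv hm hc
  let s : Setoid {f // f ∈ F ∧ ∃ P, Pb P f} :=
    ⟨fun f g => ∃ γ ∈ Γ, Commute (γ * f.1 * γ⁻¹) g.1, fun f => ⟨1, one_mem _, by simp⟩,
      fun ⟨γ, a, b⟩ => ⟨γ⁻¹, inv_mem a, by simpa [mul_assoc] using (comm_conj' b γ).symm⟩,
      fun {x y z} ⟨γ, a, b⟩ ⟨δ, a', b'⟩ => ⟨δ * γ, mul_mem a' a, by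
        simpa [mul_assoc] using ct ((nt_conj' δ).2 (f2 _ y.2.1).2) (comm_conj b δ).symm b'⟩⟩
  haveI : Finite {f // f ∈ F ∧ ∃ P, Pb P f} :=
    (f1.subset (s := F) (t := {f | f ∈ F ∧ ∃ P, Pb P f}) fun _ e => e.1).to_subtype
  obtain ⟨n, ⟨q⟩⟩ := Finite.exists_equiv_fin (Quotient s)
  choose σ hσ using fun j : Fin n => (q.symm j).out.2.2.elim fun P hP =>
    hk.exists_cu hc (f2 _ (q.symm j).out.2.1).1 (f2 _ (q.symm j).out.2.1).2 hP
  choose B hB using fun j => (hσ j).basis hk hv hm hc h1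
  refine ⟨n, σ, B, hB, fun γ hγ i j x a b => ?_, fun l hl => ?_⟩
  · rw [← (hσ _).th] at a b
    obtain rfl : i = j := q.symm.injective
      (Quotient.out_equiv_out.1 ⟨γ, hγ, hm.comm (th_conj hγ a) b⟩)
    obtain ⟨e, he⟩ := (hσ i).inv hk hm hγ a b
    exact ⟨rfl, e, mem_lat_of h1 hγ he, he⟩
  obtain ⟨d, d1, d2, d3⟩ := exists_gt_two (Q := fun f e => (∃ P, Lx P f) →
    ∀ x ∈ Th Γ c f, Tk Γ e x) f1 (fun f _ => by
      by_cases k : ∃ P, Lx P f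
      · obtain ⟨d, d1, d2⟩ := hk.lox hm hc k.choose_spec
        exact ⟨d, d1, fun e he _ => d2 e he⟩
      · exact ⟨3, by norm_num, fun e _ a => absurd a k⟩) hc
  obtain ⟨R, hR⟩ := hv.net d1
  choose S hS using fun j => slab_le (hB j) hl
  refine ⟨max R (∑ j, max (S j) 0), fun x => ?_⟩
  have a1 : ∀ γ ∈ Γ, Tk Γ d (γ * x) → ∃ γ ∈ Γ, fr (γ * x : SL) ≤ max R (∑ j, max (S j) 0) ∨
      ∃ j, lo ((σ j)⁻¹ * (γ * x)) < l := fun γ hγ e => by
    obtain ⟨δ, a, b⟩ := hR _ e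
    exact ⟨δ * γ, mul_mem a hγ, Or.inl (le_max_of_le_left (by rwa [mul_assoc]))⟩
  rcases f3 x with e | ⟨γ, hγ, f, hf, e⟩
  · exact a1 1 (one_mem _) fun g a b => d2.trans (by rw [one_mul]; exact e g a b)
  obtain ⟨P, hP | hP⟩ := shape (f2 f hf).2
  · obtain ⟨δ, a, b⟩ : s ⟨f, hf, P, hP⟩ (q.symm (q ⟦⟨f, hf, P, hP⟩⟧)).out := by
      rw [Equiv.symm_apply_apply]
      exact Setoid.symm (Quotient.mk_out _)
    have a2 := ((hσ _).th _).1 (th_mono ((nt_conj' δ).2 (f2 f hf).2) b (th_conj a e))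
    by_cases k : lo ((σ (q ⟦⟨f, hf, P, hP⟩⟧))⁻¹ * (δ * (γ * x))) < l
    · exact ⟨δ * γ, mul_mem a hγ, Or.inr ⟨_, by rwa [mul_assoc δ]⟩⟩
    · obtain ⟨ε, a3, a4⟩ := hS _ _ (not_lt.1 k) a2.le
      refine ⟨ε * (δ * γ), mul_mem a3 (mul_mem a hγ), Or.inl (le_max_of_le_right ?_)⟩
      rw [mul_assoc, mul_assoc]
      exact (a4.trans (le_max_left _ 0)).trans (Finset.single_le_sum
        (f := fun j => max (S j) 0) (fun _ _ => le_max_right _ _) (Finset.mem_univ _))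
  · exact a1 γ hγ (d3 f hf ⟨P, hP⟩ _ e)

end

end Vale.Agent.P216HY
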