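import Vale.Agent.P216HY.Mat
import Mathlib.Topology.Sequences
import Mathlib.Data.Set.Finite.Lemmas

/-!
Discrete groups without elliptic elements: short elements commute.
-/

set_option linter.all false

open Matrix Complex Filter Topology
open scoped Matrix.Norms.Frobenius

namespace Vale.Agent.P216HY

noncomputable section

/-- the displacement of `g` at the point given by `h` -/
def D (h g : SL) : ℝ := fr (h⁻¹ * g * h : SL)

theorem two_le_D (h g : SL) : 2 ≤ D h g := two_le_fr _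

theorem D_neg (h g : SL) : D h (-g) = D h g := by
  rw [D, mul_neg, neg_mul, SpecialLinearGroup.coe_neg, fr_neg, D]

theorem D_inv (h g : SL) : D h g⁻¹ = D h g := by
  rw [D, D, ← fr_adj, ← SpecialLinearGroup.coe_inv,
    show (h⁻¹ * g⁻¹ * h)⁻¹ = h⁻¹ * g * h by group]

theorem D_mul (k h g : SL) : D (k * h) g = D h (k⁻¹ * g * k) := by
  rw [D, D, show (k * h)⁻¹ * g * (k * h) = h⁻¹ * (k⁻¹ * g * k) * h by group]

theorem D_one (g : SL) : D 1 g = fr g := by simp [D]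

theorem tau_le_D (h g : SL) : tau g ≤ D h g := by rw [← tau_conj h]; exact tau_le _

theorem fr_inv (g : SL) : fr (g⁻¹ : SL) = fr g := fr_adj _

theorem D_le (h k g : SL) : D (h * k) g ≤ fr k ^ 2 * D h g := by
  have e : (h * k)⁻¹ * g * (h * k) = k⁻¹ * (h⁻¹ * g * h) * k := by group
  rw [D, e, SpecialLinearGroup.coe_mul, SpecialLinearGroup.coe_mul]
  refine (fr_mul _ _).trans ((mul_le_mul_of_nonneg_right (fr_mul _ _) (fr_nonneg _)).trans ?_)
  rw [fr_inv, D]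
  exact le_of_eq (by ring)

/-- discrete, and no element other than the centre fixes a point -/
structure KG (Γ : Subgroup SL) : Prop where
  free : ∀ g ∈ Γ, ∀ h, D h g ≤ 2 → ¬ Nt g
  disc : ∀ R : ℝ, {g | g ∈ Γ ∧ fr g ≤ R}.Finite

/-- the conjugate group -/
def cj (Γ : Subgroup SL) (σ : SL) : Subgroup SL := Γ.comap (MulAut.conj σ).toMonoidHom

theorem mem_cj {Γ : Subgroup SL} {σ x : SL} : x ∈ cj Γ σ ↔ σ * x * σ⁻¹ ∈ Γ := Iff.rfl

variable {Γ : Subgroup SL}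

theorem conj_mem_cj {σ x : SL} : σ⁻¹ * x * σ ∈ cj Γ σ ↔ x ∈ Γ := by
  rw [mem_cj, show σ * (σ⁻¹ * x * σ) * σ⁻¹ = x by group]

theorem KG.fin (h : KG Γ) (k : SL) (R : ℝ) : {g | g ∈ Γ ∧ D k g ≤ R}.Finite := by
  refine (h.disc (fr (k⁻¹ : SL) ^ 2 * R)).subset fun g hg => ⟨hg.1, ?_⟩
  have := D_le k k⁻¹ g
  rw [mul_inv_cancel, D_one] at this
  exact this.trans (mul_le_mul_of_nonneg_left hg.2 (sq_nonneg _))

theorem KG.cj (h : KG Γ) (σ : SL) : KG (cj Γ σ) := by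
  refine ⟨fun g hg k hk => ?_, fun R => ?_⟩
  · have := h.free _ (mem_cj.1 hg) (σ * k) (by rwa [D_mul, show σ⁻¹ * (σ * g * σ⁻¹) * σ = g by group])
    rwa [← nt_conj σ, show σ⁻¹ * (σ * g * σ⁻¹) * σ = g by group] at this
  · refine ((h.fin σ R).image fun g => σ⁻¹ * g * σ).subset fun g hg =>
      ⟨σ * g * σ⁻¹, ⟨hg.1, ?_⟩, by group⟩
    rw [D, show σ⁻¹ * (σ * g * σ⁻¹) * σ = g by group]
    exact hg.2

theorem nn_pow (b : ℂ) (k : ℕ) : nn b ^ k = nn (k * b) := by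
  induction k with
  | zero => simp [nn_zero]
  | succ k ih => rw [pow_succ, ih, ← nn_add]; push_cast; rw [add_mul, one_mul]

theorem tri_pow {T : SL} (h : T 1 0 = 0) (k : ℕ) : (T ^ k) 1 0 = 0 ∧ (T ^ k) 0 0 = T 0 0 ^ k := by
  induction k with
  | zero => simp
  | succ k ih => rw [pow_succ, mul_ent, mul_ent, ih.1, ih.2, h, pow_succ]; simp

theorem fr_diag {T : SL} (h1 : T 0 1 = 0) (h2 : T 1 0 = 0) (h : ‖T 0 0‖ = 1) : fr T ≤ 2 := by
  have h3 := congrArg norm (det2 T)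
  rw [h1, zero_mul, sub_zero, norm_mul, h, one_mul, norm_one] at h3
  simp [fr, h1, h2, normSq_eq_norm_sq, h, h3]
  norm_num

theorem KG.pow (h : KG Γ) {g : SL} (hg : g ∈ Γ) (hn : Nt g) {k : ℕ} (hk : k ≠ 0) : Nt (g ^ k) := by
  obtain ⟨P, hP⟩ := jordan g
  have e : P⁻¹ * g ^ k * P = (P⁻¹ * g * P) ^ k := by
    simpa using (conj_pow (a := P⁻¹) (b := g) (i := k)).symm
  rw [← nt_conj P, e]
  have hn' := (nt_conj P).2 hn
  rcases hP with ⟨b, e | e⟩ | ⟨h1, h2, -⟩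
  · rw [e] at hn' ⊢
    rw [nn_pow, nt_nn]
    exact mul_ne_zero (Nat.cast_ne_zero.2 hk) (nt_nn.1 hn')
  · rw [e] at hn' ⊢
    have := nt_nn.2 (mul_ne_zero (Nat.cast_ne_zero.2 hk) (nt_nn.1 (nt_neg.1 hn')))
    rw [← nn_pow] at this
    rcases neg_one_pow_eq_or SL k with e | e <;> rw [neg_pow, e]
    exacts [by rwa [one_mul], by rwa [neg_one_mul, nt_neg]]
  · by_contra k1
    refine h.free g hg P (fr_diag h1 h2 ?_) hn
    have h3 : ‖(P⁻¹ * g * P) 0 0‖ ^ k = 1 := by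
      rw [← norm_pow, ← (tri_pow h2 k).2]
      rcases not_nt.1 k1 with e | e <;> simp [e]
    exact (pow_eq_one_iff_of_nonneg (norm_nonneg _) hk).1 h3

theorem norm_le_of {A : M2} (h : ‖A - 1‖ ≤ 1 / 32) : ‖A‖ ≤ 2 := by
  have h1 : ‖(1 : M2)‖ ≤ 3 / 2 := abs_le_of_sq_le_sq' (by rw [norm_sq, fr_one]; norm_num)
    (by norm_num) |>.2
  linarith [norm_le_norm_add_norm_sub' A 1]

theorem norm_comm_le {F G : SL} (h1 : ‖(F : M2) - 1‖ ≤ 1 / 32) (h2 : ‖(G : M2) - 1‖ ≤ 1 / 32) :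
    ‖((F * G * F⁻¹ * G⁻¹ : SL) : M2) - 1‖ ≤ ‖(F : M2) - 1‖ / 4 := by
  have e : ((F * G * F⁻¹ * G⁻¹ : SL) : M2) - 1 = (((F : M2) - 1) * ((G : M2) - 1) -
      ((G : M2) - 1) * ((F : M2) - 1)) * (F⁻¹ : SL) * (G⁻¹ : SL) := by
    have : ((G * F * F⁻¹ * G⁻¹ : SL) : M2) = 1 := by simp
    rw [← this]
    simp only [SpecialLinearGroup.coe_mul] at this ⊢
    rw [← sub_mul, ← sub_mul, this]
    noncomm_ring
  have a1 : ‖((F⁻¹ : SL) : M2)‖ ≤ 2 := (norm_adj _).le.trans (norm_le_of h1)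
  have a2 : ‖((G⁻¹ : SL) : M2)‖ ≤ 2 := (norm_adj _).le.trans (norm_le_of h2)
  have a3 := (norm_sub_le _ _).trans (add_le_add (norm_mul_le ((F : M2) - 1) ((G : M2) - 1))
    (norm_mul_le ((G : M2) - 1) ((F : M2) - 1)))
  rw [e]
  refine (norm_mul_le _ _).trans ((mul_le_mul ((norm_mul_le _ _).trans
    (mul_le_mul a3 a1 (norm_nonneg _) (by positivity))) a2 (norm_nonneg _) (by positivity)).trans ?_)
  nlinarith [norm_nonneg ((F : M2) - 1)]

theorem KG.zass (h : KG Γ) {F G : SL} (hF : F ∈ Γ) (hG : G ∈ Γ) (h1 : ‖(F : M2) - 1‖ ≤ 1 / 32)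
    (h2 : ‖(G : M2) - 1‖ ≤ 1 / 32) : Commute F G := by
  by_cases e : F = 1
  · exact e ▸ Commute.one_left G
  have hf : {g : SL | g ∈ Γ ∧ g ≠ 1 ∧ ‖(g : M2) - 1‖ ≤ 1 / 32}.Finite :=
    (h.disc 4).subset fun g hg => ⟨hg.1, by
      rw [← norm_sq]
      nlinarith [norm_le_of hg.2.2, norm_nonneg (g : M2)]⟩
  obtain ⟨E, ⟨e1, e2, e3⟩, e4⟩ := Set.exists_min_image _ (fun g : SL => ‖(g : M2) - 1‖) hf
    ⟨F, hF, e, h1⟩
  have e5 : 0 < ‖(E : M2) - 1‖ := norm_pos_iff.2 (sub_ne_zero.2 fun k => e2 (Subtype.ext k))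
  have key : ∀ x ∈ Γ, ‖(x : M2) - 1‖ ≤ 1 / 32 → Commute E x := fun x hx k => by
    rw [← commutatorElement_eq_one_iff_commute, commutatorElement_def]
    by_contra c
    have a1 := norm_comm_le e3 k
    have a2 := e4 _ ⟨mul_mem (mul_mem (mul_mem e1 hx) (inv_mem e1)) (inv_mem hx), c, by linarith⟩
    linarith
  refine ct ⟨e2, fun k => ?_⟩ (key F hF h1) (key G hG h2)
  have := pow_le_pow_left₀ (norm_nonneg _) e3 2
  rw [norm_sq, k] at this
  norm_num [fr] at this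

theorem isCompact_fr (R : ℝ) : IsCompact {A : M2 | A.det = 1 ∧ fr A ≤ R} := by
  haveI := FiniteDimensional.proper ℂ M2
  refine Metric.isCompact_of_isClosed_isBounded
    ((isClosed_eq (by fun_prop) continuous_const).inter (isClosed_le continuous_fr continuous_const))
    ((Metric.isBounded_closedBall (x := 0) (r := R + 1)).subset fun A hA => ?_)
  have := hA.2
  rw [← norm_sq] at this
  rw [mem_closedBall_zero_iff]
  nlinarith

theorem recur {u : SL} (h : fr u ≤ 2) {δ : ℝ} (hδ : 0 < δ) :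
    ∃ k, k ≠ 0 ∧ ‖(u : M2) ^ k - 1‖ < δ := by
  have h1 : ∀ k : ℕ, fr (u ^ k : SL) = 2 := fun k => by
    have : (u : M2) ^ k * ((u : M2) ^ k)ᴴ = 1 := by
      induction k with
      | zero => simp
      | succ k ih =>
        rw [pow_succ, conjTranspose_mul, mul_assoc, ← mul_assoc (u : M2), unit_of_fr h, one_mul, ih]
    rw [fr_tr, SpecialLinearGroup.coe_pow, this]
    simp
  haveI : FirstCountableTopology M2 := inferInstanceAs (FirstCountableTopology (Fin 2 → Fin 2 → ℂ))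
  obtain ⟨A, -, φ, h2, h3⟩ := (isCompact_fr 2).tendsto_subseq (x := fun k => ((u ^ k : SL) : M2))
    fun k => ⟨(u ^ k).2, (h1 k).le⟩
  obtain ⟨N, hN⟩ := Metric.cauchySeq_iff'.1 h3.cauchySeq (δ / 2) (by positivity)
  have h4 := hN (N + 1) (by omega)
  obtain ⟨k, hk⟩ := Nat.exists_eq_add_of_lt (h2 (Nat.lt_succ_self N))
  refine ⟨k + 1, by omega, ?_⟩
  have e : (u : M2) ^ (k + 1) - 1 = ((u ^ φ N)⁻¹ : SL) *
      (((u ^ φ (N + 1) : SL) : M2) - (u ^ φ N : SL)) := by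
    rw [mul_sub, ← SpecialLinearGroup.coe_mul, ← SpecialLinearGroup.coe_mul, inv_mul_cancel,
      hk, add_assoc, pow_add u, inv_mul_cancel_left]
    rfl
  have h5 : ‖(((u ^ φ N)⁻¹ : SL) : M2)‖ ≤ 2 :=
    (abs_le_of_sq_le_sq' (by rw [norm_sq, fr_inv, h1]; norm_num) (by norm_num)).2
  rw [dist_eq_norm] at h4
  rw [e]
  refine (norm_mul_le _ _).trans_lt ?_
  refine (mul_le_mul_of_nonneg_right h5 (norm_nonneg _)).trans_lt ?_
  simp only [Function.comp] at h4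
  linarith

theorem exists_pow_near {δ : ℝ} (hδ : 0 < δ) :
    ∃ c, 2 < c ∧ ∀ f : SL, fr f < c → ∃ k, k ≠ 0 ∧ ‖(f : M2) ^ k - 1‖ < δ := by
  have ho : IsOpen {A : M2 | ∃ k, k ≠ 0 ∧ ‖A ^ k - 1‖ < δ} := by
    simp only [Set.setOf_exists]
    exact isOpen_iUnion fun k => isOpen_const.inter
      (isOpen_lt (f := fun A : M2 => ‖A ^ k - 1‖) (by fun_prop) continuous_const)
  have hk := (isCompact_fr 3).diff ho
  rcases Set.eq_empty_or_nonempty ({A : M2 | A.det = 1 ∧ fr A ≤ 3} \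
    {A : M2 | ∃ k, k ≠ 0 ∧ ‖A ^ k - 1‖ < δ}) with e | e
  · exact ⟨3, by norm_num, fun f hf => Set.diff_eq_empty.1 e ⟨f.2, hf.le⟩⟩
  · obtain ⟨A, h1, h2⟩ := hk.exists_isMinOn e continuous_fr.continuousOn
    refine ⟨fr A, lt_of_not_ge fun k => h1.2 (recur (u := ⟨A, h1.1.1⟩) k hδ), fun f hf => ?_⟩
    by_contra k
    exact absurd (h2 ⟨⟨f.2, hf.le.trans h1.1.2⟩, k⟩) (not_le.2 hf)

/-- short elements commute -/
theorem margulis : ∃ c, 2 < c ∧ ∀ Γ, KG Γ → ∀ h, ∀ f ∈ Γ, ∀ g ∈ Γ, D h f < c → D h g < c →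
    Commute f g := by
  obtain ⟨c, h1, h2⟩ := exists_pow_near (δ := 1 / 32) (by norm_num)
  refine ⟨c, h1, fun Γ hΓ h f hf g hg k1 k2 => ?_⟩
  obtain ⟨i, i0, hi⟩ := h2 _ k1
  obtain ⟨j, j0, hj⟩ := h2 _ k2
  have a1 := conj_mem_cj (σ := h).2 hf
  have a2 := conj_mem_cj (σ := h).2 hg
  have a3 := (hΓ.cj h).zass (pow_mem a1 i) (pow_mem a2 j) hi.le hj.le
  have : Commute (h⁻¹ * f * h) (h⁻¹ * g * h) := by
    by_cases n1 : Nt (h⁻¹ * f * h)
    · by_cases n2 : Nt (h⁻¹ * g * h)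
      · exact (ct ((hΓ.cj h).pow a2 n2 j0) (Commute.pow_self _ _)
          (ct ((hΓ.cj h).pow a1 n1 i0) a3 (Commute.pow_self _ _))).symm
      · exact (comm_of_not_nt n2 _).symm
    · exact comm_of_not_nt n1 _
  have e := this.map (MulAut.conj h)
  simpa [mul_assoc] using e

/-- the normaliser of a group of translations consists of translations -/
theorem KG.par_norm (h : KG Γ) {g : SL} (hg : g ∈ Γ) {b : ℂ} (hb : b ≠ 0)
    (h1 : nn b ∈ Γ ∨ -nn b ∈ Γ) (h2 : g 1 0 = 0) : ∃ c, g = nn c ∨ g = -nn c := by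
  by_cases e : g 0 0 = g 1 1
  · exact eq_nn h2 e
  exfalso
  obtain ⟨z, z1, z2, z3, z4⟩ := exists_diag h2 e
  have hn : Nt g := by
    by_contra k
    rcases not_nt.1 k with rfl | rfl <;> simp at e
  have h3 : ‖g 0 0‖ ≠ 1 := fun k => h.free g hg (nn z) (fr_diag z1 z2 (z3 ▸ k)) hn
  have h4 : nn (2 * b) ∈ Γ := by
    rw [two_mul, nn_add]
    rcases h1 with k | k
    exacts [mul_mem k k, by simpa using mul_mem k k]
  have key : ∀ x ∈ Γ, x 1 0 = 0 → ¬ ‖x 0 0‖ < 1 := fun x hx x0 x1 => by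
    have x2 := det2 x
    rw [x0, mul_zero, sub_zero] at x2
    have x3 : x 0 0 ≠ 0 := left_ne_zero_of_mul_eq_one x2
    have c1 : ∀ y : SL, y 1 0 = 0 → ∀ c, y * nn c * y⁻¹ = nn (y 0 0 ^ 2 * c) := fun y y0 c => by
      have y1 := det2 y
      rw [y0] at y1
      refine sl_ext ?_ ?_ ?_ ?_ <;>
        simp only [mul_ent, inv00, inv01, inv10, inv11, nn00, nn01, nn10, nn11, y0]
      exacts [by linear_combination y1, by ring, by ring, by linear_combination y1]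
    refine Set.infinite_of_injective_forall_mem (f := fun k : ℕ => nn ((x 0 0 ^ k) ^ 2 * (2 * b)))
      (fun i j e => ?_) (fun k => And.intro ?_ ?_) (h.disc (2 + normSq (2 * b)))
    · have e1 : (x 0 0 ^ i) ^ 2 * (2 * b) = (x 0 0 ^ j) ^ 2 * (2 * b) :=
        (congrArg (fun x : SL => x 0 1) e :)
      have e2 := congrArg norm (mul_right_cancel₀ (mul_ne_zero two_ne_zero hb) e1)
      simp only [norm_pow, ← pow_mul] at e2
      have := pow_right_injective₀ (norm_pos_iff.2 x3) x1.ne e2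
      omega
    · rw [← (tri_pow x0 k).2, ← c1 _ (tri_pow x0 k).1]
      exact mul_mem (mul_mem (pow_mem hx k) h4) (inv_mem (pow_mem hx k))
    · have : normSq ((x 0 0 ^ k) ^ 2) ≤ 1 := by
        rw [normSq_eq_norm_sq, norm_pow, norm_pow]
        exact pow_le_one₀ (by positivity) (pow_le_one₀ (by positivity)
          (pow_le_one₀ (norm_nonneg _) x1.le))
      simp only [fr, nn00, nn01, nn10, nn11, map_one, map_zero, map_mul normSq ((x 0 0 ^ k) ^ 2)]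
      nlinarith [normSq_nonneg (2 * b)]
  rcases lt_or_gt_of_ne h3 with k | k
  · exact key g hg h2 k
  · refine key g⁻¹ (inv_mem hg) (by rw [inv10, h2, neg_zero]) ?_
    have := congrArg norm (det2 g)
    rw [h2, mul_zero, sub_zero, norm_mul, norm_one] at this
    rw [inv00]
    nlinarith [norm_nonneg (g 1 1)]

end

end Vale.Agent.P216HY
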