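import Vale.Agent.P216HY.Pts
import Vale.Agent.P216R.Nat
import Mathlib.Analysis.InnerProductSpace.Projection.FiniteDimensional

/-!
The action is isometric for the hyperbolic metric and transitive on positive frames.
-/

set_option linter.all false
set_option maxSynthPendingDepth 3

open Matrix Complex Filter Topology Set
open scoped ContDiff
open Vale.Agent.P216R Vale.Agent.P216FI Vale.Agent.P219.RG

namespace Vale.Agent.P216HY

noncomputable section

/-- the hyperbolic metric -/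
def hyp : E3 → Bil E3 := wm (fun t => -1 * t) fun t => -1 * t

theorem hyp_apply (p v w : E3) :
    hyp p v w = Real.exp (-p 2) ^ 2 * (v 0 * w 0 + v 1 * w 1) + v 2 * w 2 := by
  rw [hyp, wm_apply, ← Real.exp_nat_mul, neg_one_mul]
  push_cast
  ring

theorem cd_lin : ContDiffOn ℝ ∞ (fun t : ℝ => -1 * t) univ := by fun_prop

theorem hyp_on : IsMetricOn hyp univ := wm_isMetricOn isOpen_univ cd_lin cd_lin

theorem hyp_met : Met hyp (univ : Set E3) := met_model.2 hyp_on

theorem hyp_zero (v w : E3) : hyp 0 v w = inner ℝ v w := by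
  simp [hyp_apply, PiLp.inner_apply, Fin.sum_univ_three, mul_comm]

theorem deriv_lin : deriv (fun t : ℝ => -1 * t) = fun _ => -1 :=
  funext fun t => by simpa using ((hasDerivAt_id t).const_mul (-1 : ℝ)).deriv

theorem secN_hyp (p v w : E3) : secN hyp p v w = -(hyp p v v * hyp p w w - hyp p v w ^ 2) := by
  rw [secN_model, hyp, curv_wm isOpen_univ cd_lin cd_lin (mem_univ _)]
  simp only [wm_apply, deriv_lin]
  simp
  ring

theorem XX_sec (p : E3) : XX (sec p) =
    !![((Real.exp (p 2) + (p 0 ^ 2 + p 1 ^ 2) * Real.exp (-p 2) : ℝ) : ℂ),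
      ((p 0 : ℂ) + p 1 * I) * (Real.exp (-p 2) : ℝ);
      ((p 0 : ℂ) - p 1 * I) * (Real.exp (-p 2) : ℝ), ((Real.exp (-p 2) : ℝ) : ℂ)] := by
  have h : zz p = p 0 + p 1 * I := mk_eq_add_mul_I _ _
  ext i j
  fin_cases i <;> fin_cases j
  · refine (XX00 _).trans (congrArg ofReal ?_)
    rw [lo_sec, up_sec, map_mul, normSq_ofReal, zz, normSq_mk, Real.exp_neg]
    field_simp
  · exact (XX01 _).trans (by rw [up_sec, h]; rfl)
  · refine (XX10 _).trans ?_
    rw [up_sec, h, map_mul, conj_ofReal, map_add, map_mul, conj_ofReal, conj_ofReal, conj_I,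
      mul_neg, ← sub_eq_add_neg]
    rfl
  · exact (XX11 _).trans (by rw [lo_sec]; rfl)

/-- the differential of the hermitian matrix -/
def dX (p v : E3) : M2 :=
  !![(v 2 * Real.exp (p 2) + (2 * (p 0 * v 0 + p 1 * v 1) - v 2 * (p 0 ^ 2 + p 1 ^ 2)) *
      Real.exp (-p 2) : ℝ), ((v 0 + v 1 * I) - v 2 * (p 0 + p 1 * I)) * (Real.exp (-p 2) : ℝ);
    ((v 0 - v 1 * I) - v 2 * (p 0 - p 1 * I)) * (Real.exp (-p 2) : ℝ),
      -v 2 * (Real.exp (-p 2) : ℝ)]

theorem det_dX (p v : E3) : det (dX p v) = -(hyp p v v : ℝ) := by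
  have h : ((Real.exp (p 2) : ℝ) : ℂ) * (Real.exp (-p 2) : ℝ) = 1 := by
    rw [← ofReal_mul, ← Real.exp_add, add_neg_cancel, Real.exp_zero, ofReal_one]
  rw [dX, det_fin_two_of, hyp_apply]
  generalize Real.exp (p 2) = a at h
  generalize Real.exp (-p 2) = b at h
  push_cast
  linear_combination (-(v 2 : ℂ) ^ 2) * h + (b * (v 1 - v 2 * p 1) : ℂ) ^ 2 * I_sq

theorem hasDerivAt_XX {c : ℝ → E3} {v : E3} {t : ℝ} (h : HasDerivAt c v t) (i j : Fin 2) :
    HasDerivAt (fun s => XX (sec (c s)) i j) (dX (c t) v i j) t := by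
  have k : ∀ i, HasDerivAt (fun s => c s i) (v i) t := fun i =>
    (dx i).hasFDerivAt.comp_hasDerivAt t h
  have e := (k 2).neg.exp
  simp only [XX_sec, dX]
  fin_cases i <;> fin_cases j
  · refine (((k 2).exp.add ((((k 0).pow 2).add ((k 1).pow 2)).mul e)).congr_deriv ?_).ofReal_comp
    simp; ring
  · refine (((k 0).ofReal_comp.add ((k 1).ofReal_comp.mul_const I)).mul e.ofReal_comp).congr_deriv ?_
    simp; ring
  · refine (((k 0).ofReal_comp.sub ((k 1).ofReal_comp.mul_const I)).mul e.ofReal_comp).congr_deriv ?_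
    simp; ring
  · refine e.ofReal_comp.congr_deriv ?_
    simp; ring

theorem hasFDerivAt_act (γ : SL) (p : E3) : HasFDerivAt (act γ) (fderiv ℝ (act γ) p) p :=
  ((cd_act γ).differentiable (by simp) p).hasFDerivAt

theorem dX_act (γ : SL) (p v : E3) :
    dX (act γ p) (fderiv ℝ (act γ) p v) = γ * dX p v * (γ : M2)ᴴ := by
  have h0 : HasDerivAt (fun s : ℝ => p + s • v) v 0 := by
    simpa using ((hasDerivAt_id (0 : ℝ)).smul_const v).const_add p
  have h1 := hasDerivAt_XX h0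
  have h2 := hasDerivAt_XX ((hasFDerivAt_act γ (p + (0 : ℝ) • v)).comp_hasDerivAt 0 h0)
  simp only [Function.comp, XX_act, zero_smul, add_zero] at h1 h2
  ext i j
  refine (h2 i j).unique ?_
  simp only [mul_apply, Fin.sum_univ_two]
  exact ((((h1 0 0).const_mul _).add ((h1 1 0).const_mul _)).mul_const _).add
    ((((h1 0 1).const_mul _).add ((h1 1 1).const_mul _)).mul_const _)

theorem hyp_act (γ : SL) (p v w : E3) :
    hyp (act γ p) (fderiv ℝ (act γ) p v) (fderiv ℝ (act γ) p w) = hyp p v w := by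
  have h : ∀ v, hyp (act γ p) (fderiv ℝ (act γ) p v) (fderiv ℝ (act γ) p v) = hyp p v v :=
    fun v => ofReal_injective (neg_injective (by
      rw [← det_dX, ← det_dX, dX_act, det_mul, det_mul, det_conjTranspose, γ.2]; simp))
  have h1 := h (v + w)
  simp only [map_add, ContinuousLinearMap.add_apply, h, hyp_on.symm _ (mem_univ _) w v,
    hyp_on.symm _ (mem_univ _) (fderiv ℝ (act γ) p w) (fderiv ℝ (act γ) p v)] at h1
  linarith

theorem comap_act (γ : SL) : comap (act γ) hyp = hyp := by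
  ext p v w
  rw [comap_model, hyp_act]

theorem ld_act (γ : SL) : LD E3 (act γ) univ :=
  ld_model isOpen_univ (cd_act γ).contDiffOn fun p _ =>
    (injective_iff_map_eq_zero _).2 fun v hv => hyp_on.eq_zero (mem_univ p) (by
      rw [← hyp_act γ, hv, map_zero])

theorem fderiv_act_mul (γ δ : SL) (p v : E3) :
    fderiv ℝ (act (γ * δ)) p v = fderiv ℝ (act γ) (act δ p) (fderiv ℝ (act δ) p v) := by
  rw [show act (γ * δ) = act γ ∘ act δ from funext (act_mul γ δ),
    ((hasFDerivAt_act γ _).comp p (hasFDerivAt_act δ p)).fderiv]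
  rfl

/-! ### rotations about the origin -/

/-- the traceless hermitian matrix of a vector -/
def VV (v : E3) : M2 := !![v 2, v 0 + v 1 * I; v 0 - v 1 * I, -v 2]

theorem dX_zero (v : E3) : dX 0 v = VV v := by simp [dX, VV]

theorem VV_inj {v w : E3} (h : VV v = VV w) : v = w := by
  have h0 := congrFun (congrFun h 0) 0
  have h1 := congrFun (congrFun h 0) 1
  simp [VV, Complex.ext_iff] at h0 h1
  ext i
  fin_cases i
  exacts [h1.1, h1.2, h0]

theorem VV_lin (a b : ℝ) (v w : E3) : VV (a • v + b • w) = (a : ℂ) • VV v + (b : ℂ) • VV w := by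
  ext i j
  fin_cases i <;> fin_cases j <;> simp [VV] <;> ring

theorem VV_smul (a : ℝ) (v : E3) : VV (a • v) = (a : ℂ) • VV v := by
  simpa using VV_lin a 0 v v

theorem VV_star (v : E3) : (VV v)ᴴ = VV v := by
  ext i j
  fin_cases i <;> fin_cases j <;> simp [VV, sub_eq_add_neg]

theorem inner_E3 (v w : E3) : inner ℝ v w = v 0 * w 0 + v 1 * w 1 + v 2 * w 2 := by
  simp [PiLp.inner_apply, Fin.sum_univ_three, mul_comm]

theorem VV_cliff (v w : E3) : VV v * VV w + VV w * VV v = ((2 * inner ℝ v w : ℝ) : ℂ) • 1 := by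
  rw [inner_E3]
  ext i j
  fin_cases i <;> fin_cases j <;> simp [VV, mul_apply] <;> ring_nf <;> simp <;> ring

theorem det_VV (v : E3) : det (VV v) = -(‖v‖ ^ 2 : ℝ) := by
  rw [← dX_zero, det_dX, hyp_zero, real_inner_self_eq_norm_sq]

/-- `u` induces the linear map `A` -/
def Rt (u : SL) (A : E3 → E3) : Prop :=
  XX u = 1 ∧ ∀ v, u * VV v * (u : M2)ᴴ = VV (A v)

theorem Rt.mul {u u' : SL} {A A' : E3 → E3} (h : Rt u A) (h' : Rt u' A') : Rt (u * u') (A ∘ A') :=
  ⟨by rw [XX_mul, h'.1, mul_one]; exact h.1, fun v => by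
    rw [Function.comp, ← h.2, ← h'.2]; simp [mul_assoc]⟩

theorem Rt.zero {u : SL} {A : E3 → E3} (h : Rt u A) : act u 0 = 0 := by
  rw [act_zero, ← pos_one, pos_eq_iff, h.1, XX_one]

theorem Rt.fderiv {u : SL} {A : E3 → E3} (h : Rt u A) (v : E3) : fderiv ℝ (act u) 0 v = A v :=
  VV_inj (by rw [← h.2, ← dX_zero v, ← dX_act, h.zero, dX_zero])

theorem rt_refl {n : E3} (hn : n ≠ 0) : ∃ u, Rt u (ℝ ∙ n).reflection := by
  have h0 : (‖n‖ : ℂ) ≠ 0 := ofReal_ne_zero.2 (norm_ne_zero_iff.2 hn)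
  have h1 : ∀ Y : M2, (I / ‖n‖) • VV n * Y * ((I / ‖n‖) • VV n)ᴴ =
      ((‖n‖ : ℂ) ^ 2)⁻¹ • (VV n * Y * VV n) := fun Y => by
    rw [conjTranspose_smul, VV_star, smul_mul_assoc, smul_mul_smul_comm]
    congr 1
    simp only [star_def, map_div₀, conj_I, conj_ofReal]
    field_simp
    simp
  have h2 : VV n * VV n = ((‖n‖ : ℂ) ^ 2) • 1 := by
    have := VV_cliff n n
    rw [← two_smul ℂ, real_inner_self_eq_norm_sq, ofReal_mul, mul_smul] at this
    exact_mod_cast smul_right_injective M2 (two_ne_zero (α := ℂ)) (by exact_mod_cast this)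
  refine ⟨⟨(I / ‖n‖) • VV n, ?_⟩, ?_, fun v => ?_⟩
  · rw [det_smul, det_VV, Fintype.card_fin, div_pow, I_sq]
    push_cast
    field_simp
  · have := h1 1
    rw [mul_one, mul_one, h2, smul_smul, inv_mul_cancel₀ (pow_ne_zero 2 h0), one_smul] at this
    exact this
  · refine (h1 _).trans ?_
    rw [Submodule.reflection_singleton_apply, two_smul, ← add_smul, sub_eq_add_neg, ← neg_one_smul ℝ v,
      VV_lin, eq_sub_of_add_eq (VV_cliff n v), sub_mul, mul_assoc, h2, smul_mul_assoc, one_mul,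
      mul_smul_comm, mul_one, smul_sub, smul_smul, smul_smul, inv_mul_cancel₀ (pow_ne_zero 2 h0),
      sub_eq_add_neg, ← neg_smul]
    congr 2 <;> simp
    ring

theorem det_refl {n : E3} (hn : n ≠ 0) :
    LinearMap.det (ℝ ∙ n)ᗮ.reflection.toLinearMap = -1 := by
  rw [Submodule.det_reflection, Submodule.orthogonal_orthogonal, finrank_span_singleton hn, pow_one]

theorem exists_rt' (A : E3 ≃ₗᵢ[ℝ] E3) : ∃ u, (LinearMap.det A.toLinearMap = 1 ∧ Rt u A) ∨
    (LinearMap.det A.toLinearMap = -1 ∧ Rt u fun v => -A v) := by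
  obtain ⟨l, -, rfl⟩ := A.reflections_generate_dim
  induction l with
  | nil => exact ⟨1, Or.inl ⟨LinearMap.det_id, XX_one, fun v => by simp⟩⟩
  | cons n l ih =>
    rw [List.map_cons, List.prod_cons]
    by_cases hn : n = 0
    · have : (ℝ ∙ n)ᗮ.reflection = 1 := by
        ext1 v
        rw [Submodule.reflection_orthogonal_apply, Submodule.reflection_singleton_apply]
        simp [hn]
      rwa [this, one_mul]
    obtain ⟨u, hu⟩ := ih
    obtain ⟨w, hw⟩ := rt_refl hn
    have e : ∀ B : E3 ≃ₗᵢ[ℝ] E3, LinearMap.det ((ℝ ∙ n)ᗮ.reflection * B).toLinearMap =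
        -LinearMap.det B.toLinearMap := fun B => by
      rw [← neg_one_mul, ← det_refl hn, ← LinearMap.det_comp]; rfl
    refine ⟨w * u, ?_⟩
    rw [e]
    rcases hu with ⟨a, b⟩ | ⟨a, b⟩
    · refine Or.inr ⟨by rw [a], ?_⟩
      convert hw.mul b using 1
      ext1 v
      simp [Submodule.reflection_orthogonal_apply]
    · refine Or.inl ⟨by rw [a, neg_neg], ?_⟩
      convert hw.mul b using 1
      ext1 v
      simp [Submodule.reflection_orthogonal_apply]

theorem exists_rt (A : E3 ≃ₗᵢ[ℝ] E3) (h : 0 < LinearMap.det A.toLinearMap) : ∃ u, Rt u A := by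
  obtain ⟨u, k | k⟩ := exists_rt' A
  exacts [⟨u, k.2⟩, by linarith [k.1]]

theorem exists_rt_vec (v : E3) : ∃ u A, Rt u A ∧ A (‖v‖ • ee 2) = v := by
  by_cases h : ‖v‖ • ee 2 + v = 0
  · obtain ⟨u, hu⟩ := rt_refl (n := ee 0) (by simp)
    refine ⟨u, _, hu, ?_⟩
    rw [Submodule.reflection_singleton_apply, inner_E3, eq_neg_of_add_eq_zero_left h]
    have := congrArg (fun p : E3 => p 0) h
    simp at this
    simp [this]
  · obtain ⟨u, hu⟩ := rt_refl h
    refine ⟨u, _, hu, neg_injective ?_⟩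
    rw [← Submodule.reflection_orthogonal_apply]
    simpa using Submodule.reflection_sub (v := ‖v‖ • ee 2) (w := -v) (by simp [norm_smul])

theorem not_nt_of_ev {γ : SL} {p : E3} (h : act γ =ᶠ[𝓝 p] id) : ¬ Nt γ := by
  have h0 : Tendsto (act (sec p)) (𝓝 0) (𝓝 p) :=
    (cd_act _).continuous.tendsto' _ _ (by rw [act_zero, pos_sec])
  have h1 : act ((sec p)⁻¹ * γ * sec p) =ᶠ[𝓝 0] id := (h0.eventually h).mono fun q hq => by
    rw [act_mul, act_mul, hq]; exact act_inv_act _ _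
  rw [← nt_conj (sec p)]
  generalize (sec p)⁻¹ * γ * sec p = u at h1
  have h2 : XX u = 1 := by
    rw [← XX_one, ← pos_eq_iff, pos_one, ← act_zero]; exact h1.self_of_nhds
  have h3 : ∀ v, u * VV v = VV v * u := fun v => by
    have := dX_act u 0 v
    rw [h1.fderiv_eq, h1.self_of_nhds, fderiv_id, id, ContinuousLinearMap.id_apply, dX_zero] at this
    conv_rhs => rw [this, mul_assoc, mul_eq_one_comm.1 h2, mul_one]
  have a1 := congrFun (congrFun (h3 (ee 2)) 0) 1
  have a2 := congrFun (congrFun (h3 (ee 2)) 1) 0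
  have a3 := congrFun (congrFun (h3 (ee 0)) 0) 1
  simp [VV, mul_apply] at a1 a2 a3
  exact not_nt_of (by linear_combination -a1 / 2) (by linear_combination a2 / 2) a3

/-- the differential of the affine map moving the origin to `q` -/
theorem det_sec (q p : E3) : 0 < LinearMap.det (fderiv ℝ (act (sec q)) p : E3 →ₗ[ℝ] E3) := by
  have h : act (sec q) = fun p => LinearMap.toContinuousLinearMap
      (toLpLin 2 2 (diagonal ![Real.exp (q 2), Real.exp (q 2), 1])) p + q := by
    ext p i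
    rw [act_sec]
    fin_cases i <;> simp [mk, zz, mulVec_diagonal, exp_ofReal_re]
  rw [h, (ContinuousLinearMap.hasFDerivAt _).add_const q |>.fderiv,
    LinearMap.coe_toContinuousLinearMap, toLpLin_eq_toLin, LinearMap.det_toLin, det_diagonal,
    Fin.prod_univ_three]
  simp [← Real.exp_add, Real.exp_pos]

theorem exists_frame {p q : E3} (A : E3 →L[ℝ] E3) (h1 : ∀ v w, hyp q (A v) (A w) = hyp p v w)
    (h2 : 0 < LinearMap.det (A : E3 →ₗ[ℝ] E3)) :
    ∃ γ, act γ p = q ∧ fderiv ℝ (act γ) p = A := by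
  have e : ∀ p, act (sec p) 0 = p := fun p => by rw [act_zero, pos_sec]
  have e' : ∀ p, act (sec p)⁻¹ p = 0 := fun p => by
    have := act_inv_act (sec p) 0
    rwa [e] at this
  have i1 : ∀ p v, fderiv ℝ (act (sec p)) 0 (fderiv ℝ (act (sec p)⁻¹) p v) = v := fun p v => by
    have := fderiv_act_mul (sec p) (sec p)⁻¹ p v
    rw [e', mul_inv_cancel, show act 1 = id from funext act_one, fderiv_id] at this
    exact this.symm
  let B : E3 →ₗ[ℝ] E3 := (fderiv ℝ (act (sec q)⁻¹) q : E3 →ₗ[ℝ] E3) ∘ₗ (A : E3 →ₗ[ℝ] E3) ∘ₗ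
    (fderiv ℝ (act (sec p)) 0 : E3 →ₗ[ℝ] E3)
  have b1 : ∀ v w, inner ℝ (B v) (B w) = inner ℝ v w := fun v w => by
    rw [← hyp_zero, ← hyp_zero v, ← hyp_act (sec p) 0 v, e, ← h1, ← hyp_act (sec q)⁻¹ q, e']
    rfl
  have b2 : (fderiv ℝ (act (sec q)) 0 : E3 →ₗ[ℝ] E3) ∘ₗ B =
      (A : E3 →ₗ[ℝ] E3) ∘ₗ (fderiv ℝ (act (sec p)) 0 : E3 →ₗ[ℝ] E3) :=
    LinearMap.ext fun v => i1 q _
  have b3 := congrArg LinearMap.det b2
  rw [LinearMap.det_comp, LinearMap.det_comp (A : E3 →ₗ[ℝ] E3)] at b3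
  obtain ⟨u, hu⟩ := exists_rt ((B.isometryOfInner b1).toLinearIsometryEquiv rfl)
    ((mul_pos_iff_of_pos_left (det_sec q 0)).1 ((mul_pos h2 (det_sec p 0)).trans_eq b3.symm))
  refine ⟨sec q * (u * (sec p)⁻¹), by rw [act_mul, act_mul, e', hu.zero, e], ?_⟩
  ext1 v
  rw [fderiv_act_mul, fderiv_act_mul, act_mul, e', hu.zero, hu.fderiv]
  exact (i1 q _).trans (congrArg A (i1 p v))

end

end Vale.Agent.P216HY
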