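import Vale.Agent.P216G.Jet
import Vale.Agent.P216CP.HR
import Vale.Agent.P216BF.Curv

/-!
Metrics of curvature minus one in normal coordinates.
-/

set_option linter.all false
set_option maxSynthPendingDepth 3

open Set Filter Topology Metric
open scoped Manifold ContDiff
open Vale.Agent.P216R Vale.Agent.P219.RG Vale.Agent.P216G Vale.Agent.P216BF Vale.Agent.P216CP

namespace Vale.Agent.P216HY

noncomputable section

variable {E : Type} [NormedAddCommGroup E] [InnerProductSpace ℝ E] [FiniteDimensional ℝ E]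
  {M : Type} [TopologicalSpace M] [ChartedSpace E M] [IsManifold 𝓘(ℝ, E) ∞ M]
  {g : Ten E M} {U : Set M}

theorem r4_cc {x : M} (hg : Met g U) (hx : x ∈ U) (h : SecGe g x (-1) ∧ SecLe g x (-1))
    (a v w : E) : R4 g x v a v w = g x a w * g x v v - g x a v * g x v w := by
  have h1 : ∀ a b, secN g x a b = -1 * (g x a a * g x b b - g x a b ^ 2) :=
    fun a b => le_antisymm (h.2 a b) (h.1 a b)
  have h2 := pol hg hx a v w v
  simp only [h1, map_add, map_sub, ContinuousLinearMap.add_apply, ContinuousLinearMap.sub_apply,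
    hg.symm x hx w a, hg.symm x hx w v] at h2
  rw [R4_skew]
  linarith

/-- the radial part of a vector -/
def pp (v ξ : E) : E := (inner ℝ v ξ / ‖v‖ ^ 2) • v

/-- the coframe of hyperbolic space in normal coordinates -/
def AA (v ξ : E) : E := pp v ξ + sn ‖v‖ 1 • (ξ - pp v ξ)

omit [FiniteDimensional ℝ E] in
theorem inner_pp (v ξ : E) : inner ℝ v (pp v ξ) = inner ℝ v ξ := by
  by_cases h : v = 0
  · simp [h]
  · rw [pp, inner_smul_right, real_inner_self_eq_norm_sq,
      div_mul_cancel₀ _ (pow_ne_zero 2 (norm_ne_zero_iff.2 h))]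

omit [FiniteDimensional ℝ E] in
theorem le_AA (v ξ : E) : ‖ξ‖ ^ 2 ≤ inner ℝ (AA v ξ) (AA v ξ) := by
  have h1 : 1 ≤ sn ‖v‖ 1 := by
    unfold sn
    split_ifs with h
    · rfl
    · rw [mul_one, one_le_div ((norm_nonneg v).lt_of_ne' h)]
      exact Real.self_le_sinh_iff.2 (norm_nonneg v)
  have h2 : inner ℝ (pp v ξ) (ξ - pp v ξ) = 0 := by
    rw [pp, real_inner_smul_left, ← pp, inner_sub_right, inner_pp, sub_self, mul_zero]
  have h3 := norm_add_sq_real (pp v ξ) (ξ - pp v ξ)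
  rw [add_sub_cancel, h2] at h3
  rw [real_inner_self_eq_norm_sq, AA, norm_add_sq_real, inner_smul_right, h2, norm_smul, mul_pow,
    Real.norm_eq_abs, sq_abs]
  nlinarith [mul_le_mul_of_nonneg_right (one_le_pow₀ h1 (n := 2)) (sq_nonneg ‖ξ - pp v ξ‖)]

omit [FiniteDimensional ℝ E] in
theorem ode_sol {v ξ : E} (hv : v ≠ 0) {a b : ℝ → E} (a0 : a 0 = 0) (b0 : b 0 = 0)
    (ha : ∀ s ∈ Icc (0 : ℝ) 1, HasDerivAt a (b s + ξ) s)
    (hb : ∀ s ∈ Icc (0 : ℝ) 1, HasDerivAt b (‖v‖ ^ 2 • a s - inner ℝ v (a s) • v) s) :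
    a 1 = AA v ξ := by
  have hk := norm_ne_zero_iff.2 hv
  let α : ℝ → E := fun s => a s - (s • pp v ξ + (Real.sinh (‖v‖ * s) / ‖v‖) • (ξ - pp v ξ))
  let β : ℝ → E := fun s => b s - (Real.cosh (‖v‖ * s) - 1) • (ξ - pp v ξ)
  have h1 : ∀ s ∈ Icc (0 : ℝ) 1, HasDerivAt (fun s => (α s, β s))
      (β s, ‖v‖ ^ 2 • α s - inner ℝ v (α s) • v) s := fun s hs => by
    have h0 := (hasDerivAt_id s).const_mul ‖v‖
    refine (((ha s hs).sub (((hasDerivAt_id s).smul_const _).add
      ((h0.sinh.div_const _).smul_const _))).congr_deriv ?_).prodMk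
      (((hb s hs).sub ((h0.cosh.sub_const _).smul_const _)).congr_deriv ?_)
    · simp only [β, id, mul_one, mul_div_cancel_right₀ _ hk]
      module
    · have e1 : ‖v‖ ^ 2 • pp v ξ = inner ℝ v ξ • v := by
        rw [pp, smul_smul, mul_div_cancel₀ _ (pow_ne_zero 2 hk)]
      have e2 : ‖v‖ ^ 2 * (Real.sinh (‖v‖ * s) / ‖v‖) = Real.sinh (‖v‖ * s) * ‖v‖ := by field_simp
      simp only [α, id, mul_one, inner_sub_right, inner_add_right, inner_smul_right, inner_pp,
        sub_self, mul_zero, add_zero, smul_sub (‖v‖ ^ 2), smul_add (‖v‖ ^ 2), smul_comm _ s, e1,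
        smul_smul, e2]
      module
  have h2 := gron_right (a := 0) (b := 1) (K := 1 + 2 * ‖v‖ ^ 2) (C := 0) zero_le_one
    (by positivity) le_rfl (fun s hs => (h1 s hs).continuousAt.continuousWithinAt)
    (fun s hs => h1 s (Ioo_subset_Icc_self hs)) fun s _ => by
      have c1 := norm_fst_le (α s, β s)
      have c2 := norm_snd_le (α s, β s)
      have c3 := norm_sub_le (‖v‖ ^ 2 • α s) (inner ℝ v (α s) • v)
      have c4 := mul_le_mul_of_nonneg_right (norm_inner_le_norm (𝕜 := ℝ) v (α s)) (norm_nonneg v)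
      have c5 := mul_le_mul_of_nonneg_left c1 (sq_nonneg ‖v‖)
      rw [norm_smul, norm_smul, norm_pow, norm_norm] at c3
      refine max_le ?_ ?_ <;> dsimp only at c1 c2 c5 ⊢ <;>
        nlinarith [norm_nonneg (α s, β s), mul_nonneg (sq_nonneg ‖v‖) (norm_nonneg (α s, β s))]
  have h3 : (α 0, β 0) = 0 := by simp [α, β, a0, b0]
  rw [h3, norm_zero, zero_mul, add_zero, zero_mul, norm_le_zero_iff] at h2
  have h4 : α 1 = 0 := congrArg Prod.fst h2
  rw [AA, sn, if_neg hk, sub_eq_zero.1 h4, one_smul]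

theorem Rad.eq_AA {G : E → Bil E} {r : ℝ} (hG : Rad G r)
    (h : ∀ u ∈ ball (0 : E) r, SecGe G u (-1) ∧ SecLe G u (-1)) {v : E} (hv : v ∈ ball (0 : E) r)
    (a b : E) : G v a b = inner ℝ (AA v a) (AA v b) := by
  by_cases h0 : v = 0
  · simp [h0, hG.zero, AA, pp, sn]
  obtain ⟨r', r1, r2⟩ := exists_between (mem_ball_zero_iff.1 hv)
  obtain ⟨e, θ, k⟩ := exists_gauge hG.met r2
  have hv' := mem_ball_zero_iff.2 r1
  have h1 : ∀ ξ, gA θ (1, v) ξ = AA v ξ := fun ξ => by
    refine ode_sol h0 (a := fun s => gA θ (s, v) ξ) (b := fun s => gB G e θ (s, v) ξ v)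
      (by simp [gA]) (by simp [k.gB_zero]) (fun s hs => ?_) fun s hs => ?_
    · simpa using (k.dA hG r2.le hv' hs).clm_apply (hasDerivAt_const s ξ)
    · refine (((k.dB hG r2.le hv' hs).clm_apply (hasDerivAt_const s ξ)).clm_apply
        (hasDerivAt_const s v)).congr_deriv (ext_inner_right ℝ fun w => ?_)
      have hm := smul_mem_ball hv hs
      have h2 := k.inner_gR hG r2.le hv' hs ![v, gA θ (s, v) ξ, v, w]
      rw [← Rm_model, rm0 (met_model.2 hG.met) hm] at h2
      simp only [Matrix.cons_val] at h2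
      rw [r4_cc (met_model.2 hG.met) hm (h _ hm)] at h2
      simp only [k.orth hG r2.le hv' hs] at h2
      simp only [map_zero, add_zero, ContinuousLinearMap.comp_apply, h2, inner_sub_left,
        real_inner_smul_left, real_inner_self_eq_norm_sq, real_inner_comm v (gA θ (s, v) ξ)]
      ring
  rw [k.eq_inner hG r2.le hv', h1, h1]

theorem eq_AA_of {f : E → M} (hg : Met g U) (hc : ∀ x ∈ U, SecGe g x (-1) ∧ SecLe g x (-1))
    (hf : ∀ v, SM E f v) (hm : ∀ v, f v ∈ U) (h0 : ∀ a b, comap f g 0 a b = inner ℝ a b)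
    (h : ∀ v w, comap f g v v w = inner ℝ v w) :
    LD E f univ ∧ ∀ v a b, comap f g v a b = inner ℝ (AA v a) (AA v b) := by
  have h1 : ∀ r, (∀ v ∈ ball (0 : E) r, Function.Injective (md E f v)) →
      ∀ v ∈ ball (0 : E) r, ∀ a b, comap f g v a b = inner ℝ (AA v a) (AA v b) := by
    intro r hr v hv
    have ld : LD E f (ball 0 r) := ⟨isOpen_ball, fun v _ => (hf v).contMDiffWithinAt, hr⟩
    refine Rad.eq_AA (rad_of_gauss (hg.isMetricOn_comap ld fun v _ => hm v)
      (pos_of_mem_ball hv) fun v _ => h v) (fun u hu => ?_) hv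
    have li := li_comap hg ld hu (hm u)
    exact ⟨(li.SecGe _).2 (hc _ (hm u)).1, (li.SecLe _).2 (hc _ (hm u)).2⟩
  have h2 : Continuous (comap f g) :=
    continuous_iff_continuousAt.2 fun v => (hg.contDiffAt (hf v) (hm v)).continuousAt
  have h3 : ∀ v, (∀ ξ, ‖ξ‖ = 1 → 1 / 2 < comap f g v ξ ξ) → Function.Injective (md E f v) :=
    fun v hv => (injective_iff_map_eq_zero _).2 fun ξ e => by_contra fun k => by
      have := hv (‖ξ‖⁻¹ • ξ) (norm_smul_inv_norm k)
      rw [comap_apply, map_smul, e, smul_zero, map_zero] at this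
      norm_num at this
  have h4 : ∀ v ξ, ‖ξ‖ = 1 → 1 / 2 < comap f g v ξ ξ := by
    intro v ξ hξ
    by_contra k
    haveI := FiniteDimensional.proper ℝ E
    have hK := ((isCompact_closedBall (0 : E) ‖v‖).prod (isCompact_sphere (0 : E) 1)).inter_right
      (isClosed_le (f := fun p : E × E => comap f g p.1 p.2 p.2)
        (((h2.comp continuous_fst).clm_apply continuous_snd).clm_apply continuous_snd)
        (continuous_const (y := 1 / 2)))
    obtain ⟨⟨u, η⟩, ⟨⟨-, u1⟩, u2⟩, u3⟩ := hK.exists_isMinOn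
      ⟨(v, ξ), ⟨mem_closedBall_zero_iff.2 le_rfl, mem_sphere_zero_iff_norm.2 hξ⟩, not_lt.1 k⟩
      (continuous_fst.norm.continuousOn)
    have u0 : ‖u‖ ≤ ‖v‖ :=
      u3 (a := (v, ξ)) ⟨⟨mem_closedBall_zero_iff.2 le_rfl, mem_sphere_zero_iff_norm.2 hξ⟩, not_lt.1 k⟩
    rw [mem_sphere_zero_iff_norm] at u1
    replace u2 : comap f g u η η ≤ 1 / 2 := u2
    have h5 := h1 ‖u‖ fun w hw => h3 w fun ζ hζ => lt_of_not_ge fun e => by
      rw [mem_ball_zero_iff] at hw
      exact hw.not_ge (u3 (a := (w, ζ)) ⟨⟨mem_closedBall_zero_iff.2 (hw.le.trans u0),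
        mem_sphere_zero_iff_norm.2 hζ⟩, e⟩)
    by_cases e : u = 0
    · rw [e, h0, real_inner_self_eq_norm_sq, u1] at u2
      norm_num at u2
    · have h6 : closedBall (0 : E) ‖u‖ ⊆ {w | ‖η‖ ^ 2 ≤ comap f g w η η} := by
        rw [← closure_ball _ (norm_ne_zero_iff.2 e)]
        exact (isClosed_le continuous_const ((h2.clm_apply continuous_const).clm_apply
          continuous_const)).closure_subset_iff.2 fun w hw =>
          (le_AA w η).trans_eq (h5 w hw η η).symm
      have h7 : ‖η‖ ^ 2 ≤ comap f g u η η := h6 (mem_closedBall_zero_iff.2 le_rfl)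
      rw [u1] at h7
      linarith
  exact ⟨⟨isOpen_univ, fun v _ => (hf v).contMDiffWithinAt, fun v _ => h3 v (h4 v)⟩,
    fun v => h1 (‖v‖ + 1) (fun w _ => h3 w (h4 w)) v (by simp)⟩

theorem exp_AA (hg : Met g U) (hH : Hs U) (hc : ∀ x ∈ U, SecGe g x (-1) ∧ SecLe g x (-1)) {p : M}
    (hp : p ∈ U) (hD : ∀ v, v ∈ Dom g U p) {L : E →L[ℝ] E}
    (hL : ∀ v w, g p (L v) (L w) = inner ℝ v w) : LD E (expo g U p ∘ L) univ ∧
      ∀ v a b, comap (expo g U p ∘ L) g v a b = inner ℝ (AA v a) (AA v b) := by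
  have h1 : ∀ v, SM E L v := fun v => L.contDiff.contMDiff v
  have h2 : ∀ v a b, comap (expo g U p ∘ L) g v a b = comap (expo g U p) g (L v) (L a) (L b) :=
    fun v a b => by
      rw [← comap_comp g (SM.md (contMDiffAt_expo hg hH (hD _))) (h1 v).md, comap_model, L.fderiv]
  refine eq_AA_of hg hc (fun v => (contMDiffAt_expo hg hH (hD _)).comp v (h1 v))
    (fun v => expo_mem hg hH (hD _)) (fun a b => ?_) fun v w => ?_
  · rw [h2, map_zero, comap_expo_zero hg hH hp, hL]
  · rw [h2, gauss hg hH (hD _), hL]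

end

end Vale.Agent.P216HY
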