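import Vale.Agent.P216HY.Isom
import Vale.Agent.P216HY.NC
import Vale.Agent.P216R.Flow
import Vale.Agent.P216CY.Flat
import Vale.Agent.P216FI.Vol2
import Mathlib.Analysis.SpecialFunctions.Arsinh
import Mathlib.Topology.Algebra.IsUniformGroup.Basic

/-!
Complete manifolds of curvature minus one are quotients of hyperbolic space.
-/

set_option linter.all false
set_option maxSynthPendingDepth 3

open Set Filter Topology Metric Matrix MeasureTheory
open scoped Manifold ContDiff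
open Vale.Agent.P216R Vale.Agent.P219.RG Vale.Agent.P216CP Vale.Agent.P216FI

namespace Vale.Agent.P216HY

noncomputable section

variable {M : Type} [TopologicalSpace M] [ChartedSpace E3 M] [IsManifold 𝓘(ℝ, E3) ∞ M]
  {g : Ten E3 M} {U : Set M} {F F' : E3 → M}

/-- `F` is a local isometry from hyperbolic space to `(U, g)` -/
structure Dev (g : Ten E3 M) (U : Set M) (F : E3 → M) : Prop where
  ld : LD E3 F univ
  mem : ∀ p, F p ∈ U
  iso : comap F g = hyp

theorem dev_id : Dev hyp univ (id : E3 → E3) := ⟨ld_id isOpen_univ, fun _ => trivial, comap_id _⟩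

theorem Dev.md_comp (h : Dev g U F) (γ : SL) (p v : E3) :
    md E3 (F ∘ act γ) p v = md E3 F (act γ p) (fderiv ℝ (act γ) p v) := by
  rw [P216R.md_comp (h.ld.md trivial) ((ld_act γ).md trivial), md_model]; rfl

theorem Dev.comp (h : Dev g U F) (γ : SL) : Dev g U (F ∘ act γ) :=
  ⟨h.ld.comp (ld_act γ) (mapsTo_univ _ _), fun _ => h.mem _, funext fun p => by
    rw [← comap_comp g (h.ld.md trivial) ((ld_act γ).md trivial), h.iso, comap_act]⟩

theorem Dev.apply (h : Dev g U F) (p v w : E3) :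
    g (F p) (md E3 F p v) (md E3 F p w) = hyp p v w := by rw [← h.iso, comap_apply]

theorem Dev.continuous (h : Dev g U F) : Continuous F :=
  continuous_iff_continuousAt.2 fun _ => h.ld.continuousAt trivial

theorem Dev.loc_inj (h : Dev g U F) (p : E3) : ∃ W ∈ 𝓝 p, InjOn F W := by
  obtain ⟨k, -, k2, -⟩ := exists_inv (h.ld.sm (mem_univ p)) (h.ld.inj p trivial)
  exact ⟨_, k2, fun x hx y hy e => hx.symm.trans (e ▸ hy)⟩

theorem geo_line (k : ℝ) : Geo hyp (fun t : ℝ => t • k • ee 2) univ := by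
  have h : ∀ t : ℝ, HasDerivAt (fun t : ℝ => t • k • ee 2) (k • ee 2) t := fun t => by
    simpa using (hasDerivAt_id t).smul_const (k • ee 2)
  have h1 : deriv (fun t : ℝ => t • k • ee 2) = fun _ => k • ee 2 := funext fun t => (h t).deriv
  refine ⟨fun t _ => (h t).continuousAt.continuousWithinAt, fun a t _ _ => ?_⟩
  rw [show cc (E := E3) (fun t : ℝ => t • k • ee 2) a = fun t : ℝ => t • k • ee 2 from rfl, h1,
    co_model, hyp, chris_wm isOpen_univ cd_lin cd_lin (mem_univ _)]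
  exact ⟨(h t).differentiableAt, differentiableAt_const _, by simp [wc]⟩

theorem Dev.exp_line (h : Dev g U F) (hg : Met g U) (hH : Hs U) (k : ℝ) :
    md E3 F 0 (k • ee 2) ∈ Dom g U (F 0) ∧
      expo g U (F 0) (md E3 F 0 (k • ee 2)) = F (k • ee 2) := by
  have h1 : IsGeo g U (F ∘ fun t : ℝ => t • k • ee 2) univ :=
    ⟨(geo_line k).map isOpen_univ fun t _ => ⟨⟨U, hg, h.mem _⟩, ⟨univ, h.ld, trivial⟩,
      h.iso ▸ EventuallyEq.rfl⟩, fun t _ => h.mem _⟩
  have h2 := h1.eq_ray hg hH isOpen_univ ordConnected_univ (c := 0) (t := 1) trivial trivial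
  have h3 : HasDerivAt (fun t : ℝ => t • k • ee 2) (k • ee 2) 0 := by
    simpa using (hasDerivAt_id (0 : ℝ)).smul_const (k • ee 2)
  rw [← h1.vel_eq isOpen_univ trivial, vel_map (h.ld.md trivial)
    h3.differentiableAt.mdifferentiableAt, vel_model, h3.deriv] at h2
  simp only [Function.comp, zero_smul, add_zero, one_smul] at h2
  exact h2

theorem Dev.exp_rt (h : Dev g U F) (hg : Met g U) (hH : Hs U) {u : SL} {A : E3 → E3}
    (hu : Rt u A) (k : ℝ) : md E3 F 0 (A (k • ee 2)) ∈ Dom g U (F 0) ∧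
      expo g U (F 0) (md E3 F 0 (A (k • ee 2))) = F (act u (k • ee 2)) := by
  simpa only [h.md_comp, Function.comp, hu.zero, hu.fderiv] using (h.comp u).exp_line hg hH k

/-- the exponential map of hyperbolic space -/
def kap : E3 → E3 := expo hyp univ 0

theorem kap_rt {u : SL} {A : E3 → E3} (hu : Rt u A) (k : ℝ) :
    A (k • ee 2) ∈ Dom hyp univ (0 : E3) ∧ kap (A (k • ee 2)) = act u (k • ee 2) := by
  have := dev_id.exp_rt hyp_met (hs_of_t2 _) hu k
  rwa [md_id] at this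

theorem Dev.exp (h : Dev g U F) (hg : Met g U) (hH : Hs U) (v : E3) :
    expo g U (F 0) (md E3 F 0 v) = F (kap v) := by
  obtain ⟨u, A, hu, e⟩ := exists_rt_vec v
  rw [← e, (kap_rt hu _).2, (h.exp_rt hg hH hu _).2]

theorem XX_rt {u : SL} {A : E3 → E3} (hu : Rt u A) (k : ℝ) : XX (sec (act u (k • ee 2))) =
    (Real.cosh k : ℂ) • 1 + (Real.sinh k : ℂ) • VV (A (ee 2)) := by
  have : XX (sec (k • ee 2)) = (Real.cosh k : ℂ) • 1 + (Real.sinh k : ℂ) • VV (ee 2) := by
    rw [XX_sec]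
    ext i j
    fin_cases i <;> fin_cases j <;> simp [VV, ← sub_eq_add_neg]
  rw [XX_act, this, mul_add, add_mul, mul_smul_comm, smul_mul_assoc, mul_one, ← XX, hu.1,
    mul_smul_comm, smul_mul_assoc, hu.2]

theorem Rt.smul {u : SL} {A : E3 → E3} (hu : Rt u A) (k : ℝ) (v : E3) : A (k • v) = k • A v := by
  rw [← hu.fderiv, ← hu.fderiv, map_smul]

theorem kap_inj : Function.Injective kap := fun v w e => by
  obtain ⟨u, A, hu, a⟩ := exists_rt_vec v
  obtain ⟨u', A', hu', a'⟩ := exists_rt_vec w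
  rw [← a, ← a', (kap_rt hu _).2, (kap_rt hu' _).2] at e
  have h1 := congrArg (fun p => XX (sec p)) e
  simp only [XX_rt hu, XX_rt hu'] at h1
  have h2 := congrArg trace h1
  simp [VV, trace_fin_two, ← Complex.ofReal_cosh] at h2
  have h3 := Real.cosh_strictMonoOn.injOn (norm_nonneg v) (norm_nonneg w) h2
  rw [← h3, add_right_inj, ← VV_smul, ← VV_smul] at h1
  rw [← a, ← a', hu.smul, hu'.smul, ← h3]
  by_cases k : ‖v‖ = 0
  · rw [k, zero_smul, zero_smul]
  · rw [smul_right_injective E3 (Real.sinh_ne_zero.2 k) (VV_inj h1)]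

theorem kap_surj : Function.Surjective kap := fun p => by
  obtain ⟨a, n, h0, h1⟩ : ∃ (a : ℝ) (n : E3), 0 < a ∧ XX (sec p) = (a : ℂ) • 1 + VV n := by
    refine ⟨(Real.exp (p 2) + (p 0 ^ 2 + p 1 ^ 2) * Real.exp (-p 2) + Real.exp (-p 2)) / 2,
      !₂[p 0 * Real.exp (-p 2), p 1 * Real.exp (-p 2),
        (Real.exp (p 2) + (p 0 ^ 2 + p 1 ^ 2) * Real.exp (-p 2) - Real.exp (-p 2)) / 2],
      by positivity, ?_⟩
    rw [XX_sec]
    ext i j
    fin_cases i <;> fin_cases j <;> simp [VV] <;> ring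
  have h2 : a ^ 2 = 1 + ‖n‖ ^ 2 := by
    have h3 : det (XX (sec p)) = 1 := by simp [XX]
    have h4 := det_VV n
    rw [h1] at h3
    simp [det_fin_two, VV] at h3 h4
    exact_mod_cast (by linear_combination h3 - h4 : (a : ℂ) ^ 2 = 1 + (‖n‖ : ℂ) ^ 2)
  obtain ⟨u, A, hu, e⟩ := exists_rt_vec n
  refine ⟨_, (kap_rt hu (Real.arsinh ‖n‖)).2.trans ?_⟩
  rw [← pos_sec (act u _), ← pos_sec p, pos_eq_iff, XX_rt hu, h1, Real.sinh_arsinh,
    Real.cosh_arsinh, ← h2, Real.sqrt_sq h0.le, ← VV_smul, ← hu.smul, e]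

theorem exists_dev (hg : Met g U) (hH : Hs U) (hc : ∀ x ∈ U, SecGe g x (-1) ∧ SecLe g x (-1))
    (hC : Cpl g U) (hU : IsPreconnected U) {p : M} (hp : p ∈ U) :
    ∃ F, Dev g U F ∧ range F = U := by
  obtain ⟨L, hL, -⟩ := P216CY.exists_iso (hg.symm p hp) (hg.pos p hp) (X := 0) (p := 0) (by simp)
  have hD : ∀ v, v ∈ Dom g U p := fun v =>
    tb_subset_Dom hg hH (hC.cpt hp (√(g p v v) + 1)) hp (lt_add_one √(g p v v))
  obtain ⟨a1, a2⟩ := exp_AA hg hH hc hp hD (L := L) hL
  obtain ⟨b1, b2⟩ := exp_AA hyp_met (hs_of_t2 _)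
    (fun x _ => ⟨fun v w => by rw [secN_hyp]; linarith, fun v w => by rw [secN_hyp]; linarith⟩)
    (mem_univ 0) (fun v => by
      obtain ⟨u, A, hu, e⟩ := exists_rt_vec v
      exact e ▸ (kap_rt hu _).1) (L := ContinuousLinearMap.id ℝ E3) hyp_zero
  replace b1 : LD E3 kap univ := b1
  have c1 := b1.inverse kap_inj.injOn
  rw [image_univ_of_surjective kap_surj] at c1
  have c2 : ∀ v, Function.invFunOn kap univ (kap v) = v := fun v =>
    kap_inj.injOn.leftInvOn_invFunOn (mem_univ v)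
  have c3 : kap ∘ Function.invFunOn kap univ = id := funext fun q => by
    obtain ⟨v, rfl⟩ := kap_surj q
    exact congrArg kap (c2 v)
  have c4 : comap (expo g U p ∘ (L : E3 →L[ℝ] E3)) g = comap kap hyp := by
    ext v a b
    exact (a2 v a b).trans (b2 v a b).symm
  refine ⟨(expo g U p ∘ (L : E3 →L[ℝ] E3)) ∘ Function.invFunOn kap univ,
    ⟨a1.comp c1 (mapsTo_univ _ _), fun q => expo_mem hg hH (hD _), funext fun q => ?_⟩,
    Subset.antisymm (range_subset_iff.2 fun q => expo_mem hg hH (hD _)) fun y hy => ?_⟩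
  · rw [← comap_comp g (a1.md trivial) (c1.md trivial), c4,
      comap_comp hyp (b1.md trivial) (c1.md trivial), c3, P216R.comap_id]
  · obtain ⟨v, -, e, -⟩ := exists_expo hg hH (hC.cpt hp (dd g U p y + 1))
      (mem_bl_iff.2 ⟨hg.ed_ne_top hU Subset.rfl hp hy, lt_add_one _⟩)
    exact ⟨kap (L.symm v), by simp [c2, e]⟩

theorem Dev.rigid (h : Dev g U F) (h' : Dev g U F') (hg : Met g U) (hH : Hs U) {p : E3}
    (h1 : F p = F' p) (h2 : md E3 F p = md E3 F' p) : F = F' := funext fun q => by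
  obtain ⟨v, hv⟩ := kap_surj (act (sec p)⁻¹ q)
  have a1 := (h.comp (sec p)).exp hg hH v
  have a2 := (h'.comp (sec p)).exp hg hH v
  simp only [h.md_comp, h'.md_comp, Function.comp, act_zero, pos_sec, hv, act_act_inv] at a1 a2
  rw [← a1, ← a2, h1, h2]

/-- the group of deck transformations -/
def deck (F : E3 → M) : Subgroup SL where
  carrier := {γ | ∀ p, F (act γ p) = F p}
  mul_mem' := fun {a b} ha hb p => by rw [act_mul, ha, hb]
  one_mem' := fun p => by rw [act_one]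
  inv_mem' := fun {a} ha p => by rw [← ha, act_act_inv]

theorem neg_one_mem_deck : -1 ∈ deck F := fun p => by rw [act_neg, act_one]

theorem Dev.trans (h : Dev g U F) (hg : Met g U) (hH : Hs U) {p q : E3} (e : F p = F q)
    (ho : 0 < (md E3 F p).det * (md E3 F q).det) : ∃ γ ∈ deck F, act γ p = q := by
  let B := (LinearEquiv.ofInjectiveEndo (md E3 F q : E3 →ₗ[ℝ] E3)
    (h.ld.inj q trivial)).toContinuousLinearEquiv
  have h1 : ∀ v, md E3 F q (((B.symm : E3 →L[ℝ] E3) ∘L md E3 F p) v) = md E3 F p v :=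
    fun v => B.apply_symm_apply _
  generalize (B.symm : E3 →L[ℝ] E3) ∘L md E3 F p = A at h1
  have h2 : (md E3 F p).det = (md E3 F q).det * LinearMap.det (A : E3 →ₗ[ℝ] E3) :=
    (congrArg LinearMap.det (LinearMap.ext fun v => (h1 v).symm)).trans (LinearMap.det_comp _ _)
  obtain ⟨γ, a, b⟩ := exists_frame (p := p) (q := q) A
    (fun v w => by rw [← h.apply, h1, h1, ← e, h.apply])
    (by rw [h2] at ho; nlinarith [mul_self_nonneg (md E3 F q).det])
  refine ⟨γ, congrFun ((h.comp γ).rigid h hg hH (p := p) (by rw [Function.comp, a, e]) ?_), a⟩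
  ext1 v
  rw [h.md_comp, a, b, h1]

theorem Dev.free (h : Dev g U F) {γ : SL} (hγ : γ ∈ deck F) {p : E3} (e : act γ p = p) :
    ¬ Nt γ := by
  obtain ⟨W, w1, w2⟩ := h.loc_inj p
  refine not_nt_of_ev (p := p) ?_
  filter_upwards [w1, (cd_act γ).continuous.tendsto' p p e w1] with q q1 q2
  exact w2 q2 q1 (hγ q)

theorem Dev.kg (h : Dev g U F) : KG (deck F) := by
  refine ⟨fun γ hγ k e => h.free hγ (p := pos k) ?_, fun R => ?_⟩
  · rw [act_pos, eq_comm, pos_eq_iff_fr, ← mul_assoc]; exact e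
  have h1 : ∀ᶠ γ in 𝓝 (1 : SL), γ ∈ deck F → γ = 1 := by
    obtain ⟨W, w1, w2⟩ := h.loc_inj 0
    have c : Continuous fun x : SL => (x 0 0).re :=
      Complex.continuous_re.comp (continuous_subtype_val.matrix_elem 0 0)
    filter_upwards [continuous_pos.tendsto' 1 0 pos_one w1,
      c.continuousAt.eventually (lt_mem_nhds (show 0 < ((1 : SL) 0 0).re by simp))] with γ a b hγ
    refine (not_nt.1 (h.free hγ (w2 (act_zero γ ▸ a) (mem_of_mem_nhds w1) (hγ 0)))).resolve_right ?_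
    rintro rfl
    norm_num at b
  have h2 : DiscreteTopology (deck F) := discreteTopology_iff_isOpen_singleton_one.2 (by
    refine isOpen_iff_mem_nhds.2 fun x hx => ?_
    rw [hx]
    exact mem_of_superset (continuous_subtype_val.tendsto' (1 : deck F) 1 rfl h1)
      fun x hx => Subtype.ext (hx x.2))
  have h3 := (deck F).tendsto_coe_cofinite_of_discrete (isDiscrete_iff_discreteTopology.2 h2)
    (isCompact_sl R).compl_mem_cocompact
  refine (Finite.image Subtype.val h3).subset fun x hx => ⟨⟨x, hx.1⟩, fun k => k hx.2, rfl⟩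

theorem Dev.fv [MeasurableSpace M] [BorelSpace M] (h : Dev g U F) (hv : vol g U ≠ ⊤)
    (ht : ∀ p q, F p = F q → ∃ γ ∈ deck F, act γ p = q) : FV (deck F) := by
  intro c hc S hS
  have w0 := exists_nhds hc
  rw [nhds_prod_eq] at w0
  obtain ⟨W, w1, w2⟩ := (eventually_prod_self_iff (r := fun p q : E3 => ∀ u : SL, fr u ≤ 2 →
    fr (sec p * u * (sec q)⁻¹ : SL) < c)).1 w0
  obtain ⟨V, v1, v2, v3⟩ := _root_.mem_nhds_iff.1 w1
  have h1 : ∀ x ∈ S, ∀ y ∈ S, ∀ p ∈ V, ∀ q ∈ V, F (act y q) = F (act x p) → x = y ∧ q = p := by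
    intro x hx y hy p hp q hq e
    obtain ⟨γ, a, b⟩ := ht _ _ e
    have k := pos_eq_iff_fr.1 (b.symm.trans (act_pos γ (y * sec q)))
    obtain ⟨rfl, k1⟩ := hS x hx y hy γ a (by
      convert w2 p (v1 hp) q (v1 hq) _ k using 3
      group)
    exact ⟨rfl, act_injective _ (by rwa [act_of_not_nt k1] at b)⟩
  have h2 : ∀ x : S, InjOn (F ∘ act x) V := fun x p hp q hq e => (h1 x x.2 x x.2 q hq p hp e).2
  have h3 := Measure.finite_const_le_meas_of_disjoint_iUnion (vol g)
    (vol_pos hyp_met (mem_univ 0) (v2.mem_nhds v3)) (As := fun x : S => (F ∘ act x) '' V)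
    (fun x => ((h.comp x).ld.isOpen_image v2 (subset_univ _)).measurableSet)
    (fun x y e => disjoint_left.2 fun _ ⟨p, hp, a⟩ ⟨q, hq, b⟩ =>
      e (Subtype.ext (h1 x x.2 y y.2 p hp q hq (b.trans a.symm)).1))
    (ne_top_of_le_ne_top hv (measure_mono (iUnion_subset fun x _ ⟨p, _, e⟩ => e ▸ h.mem _)))
  refine finite_coe_iff.1 (finite_univ_iff.1 (h3.subset fun x _ => ?_))
  rw [mem_setOf_eq, vol_image g ((h.comp x).ld.mono v2 (subset_univ _)) (h2 x)
    (HereditarilyLindelofSpace.isLindelof V) Subset.rfl v2.measurableSet Subset.rfl, (h.comp x).iso]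

end

end Vale.Agent.P216HY
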