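import Mathlib.Analysis.Matrix.Normed
import Mathlib.LinearAlgebra.Matrix.SpecialLinearGroup
import Mathlib.LinearAlgebra.Matrix.ToLinearEquiv
import Mathlib.Analysis.Complex.Polynomial.Basic
import Mathlib.Analysis.Normed.Module.FiniteDimension
import Mathlib.Tactic.LinearCombination

/-!
Complex two by two matrices: norm, centralisers, normal forms.
-/

set_option linter.all false

open Matrix Complex
open scoped Matrix.Norms.Frobenius

namespace Vale.Agent.P216HY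

noncomputable section

abbrev M2 : Type := Matrix (Fin 2) (Fin 2) ℂ
abbrev SL : Type := SpecialLinearGroup (Fin 2) ℂ

/-- the squared norm -/
def fr (A : M2) : ℝ := normSq (A 0 0) + normSq (A 0 1) + normSq (A 1 0) + normSq (A 1 1)

theorem fr_nonneg (A : M2) : 0 ≤ fr A := by
  unfold fr
  linarith [normSq_nonneg (A 0 0), normSq_nonneg (A 0 1), normSq_nonneg (A 1 0),
    normSq_nonneg (A 1 1)]

theorem norm_sq (A : M2) : ‖A‖ ^ 2 = fr A := by
  rw [frobenius_norm_def, ← Real.sqrt_eq_rpow, Real.sq_sqrt (by positivity)]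
  simp only [Fin.sum_univ_two, fr, Real.rpow_two, normSq_eq_norm_sq]
  ring

theorem fr_mul (A B : M2) : fr (A * B) ≤ fr A * fr B := by
  rw [← norm_sq, ← norm_sq, ← norm_sq, ← mul_pow]
  exact pow_le_pow_left₀ (norm_nonneg _) (norm_mul_le A B) 2

theorem fr_adj (A : M2) : fr (adjugate A) = fr A := by
  simp [fr, adjugate_fin_two]; ring

theorem norm_adj (A : M2) : ‖adjugate A‖ = ‖A‖ :=
  (sq_eq_sq₀ (norm_nonneg _) (norm_nonneg _)).1 (by rw [norm_sq, norm_sq, fr_adj])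

theorem adj_sub (A : M2) : adjugate (A - 1) = adjugate A - 1 := by
  ext i j
  fin_cases i <;> fin_cases j <;> simp [adjugate_fin_two]

theorem fr_neg (A : M2) : fr (-A) = fr A := by simp [fr]

theorem fr_one : fr 1 = 2 := by norm_num [fr]

theorem fr_tr (A : M2) : fr A = (trace (A * Aᴴ)).re := by
  simp [fr, trace_fin_two, mul_apply, normSq_apply]; ring

theorem continuous_fr : Continuous fr := by
  rw [← funext norm_sq]; fun_prop

theorem det2 (A : SL) : A 0 0 * A 1 1 - A 0 1 * A 1 0 = 1 := by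
  rw [← det_fin_two]; exact A.2

theorem sl_ext {A B : SL} (h0 : A 0 0 = B 0 0) (h1 : A 0 1 = B 0 1) (h2 : A 1 0 = B 1 0)
    (h3 : A 1 1 = B 1 1) : A = B := by
  ext i j
  fin_cases i <;> fin_cases j <;> assumption

theorem mul_ent (A B : SL) (i j : Fin 2) : (A * B) i j = A i 0 * B 0 j + A i 1 * B 1 j := by
  simp [mul_apply]

theorem inv00 (A : SL) : A⁻¹ 0 0 = A 1 1 := by simp [adjugate_fin_two]
theorem inv01 (A : SL) : A⁻¹ 0 1 = -A 0 1 := by simp [adjugate_fin_two]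
theorem inv10 (A : SL) : A⁻¹ 1 0 = -A 1 0 := by simp [adjugate_fin_two]
theorem inv11 (A : SL) : A⁻¹ 1 1 = A 0 0 := by simp [adjugate_fin_two]
theorem neg_ent (A : SL) (i j : Fin 2) : (-A) i j = -A i j := rfl

theorem fr_id (A : SL) : fr A = 2 + normSq (A 0 0 - (starRingEnd ℂ) (A 1 1)) +
    normSq (A 0 1 + (starRingEnd ℂ) (A 1 0)) := by
  have h := congrArg re (det2 A)
  simp only [fr, normSq_apply, sub_re, mul_re, one_re, add_re, add_im, sub_im, conj_re,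
    conj_im] at h ⊢
  linear_combination 2 * h

theorem two_le_fr (A : SL) : 2 ≤ fr A := by
  rw [fr_id]
  linarith [normSq_nonneg (A 0 0 - (starRingEnd ℂ) (A 1 1)),
    normSq_nonneg (A 0 1 + (starRingEnd ℂ) (A 1 0))]

theorem unit_of_fr {A : SL} (h : fr A ≤ 2) : (A : M2) * (A : M2)ᴴ = 1 := by
  rw [fr_id] at h
  have h1 := normSq_nonneg (A 0 0 - (starRingEnd ℂ) (A 1 1))
  have h2 := normSq_nonneg (A 0 1 + (starRingEnd ℂ) (A 1 0))
  have h3 : (starRingEnd ℂ) (A 1 1) = A 0 0 :=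
    (sub_eq_zero.1 (normSq_eq_zero.1 (by linarith))).symm
  have h4 : (starRingEnd ℂ) (A 1 0) = -A 0 1 :=
    eq_neg_of_add_eq_zero_right (normSq_eq_zero.1 (by linarith))
  have h5 : (starRingEnd ℂ) (A 0 0) = A 1 1 := by rw [← h3, conj_conj]
  have h6 : (starRingEnd ℂ) (A 0 1) = -A 1 0 := by
    rw [← neg_neg (A 0 1), ← h4, map_neg, conj_conj]
  have h7 := det2 A
  ext i j
  fin_cases i <;> fin_cases j <;> simp [mul_apply, h3, h4, h5, h6]
  · linear_combination h7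
  · ring
  · ring
  · linear_combination h7

/-- a lower bound for the norms of the conjugates -/
def tau (A : M2) : ℝ := (normSq (trace A) + ‖trace A ^ 2 - 4 * det A‖) / 2

theorem tau_le (A : M2) : tau A ≤ fr A := by
  have h1 : trace A ^ 2 - 4 * det A = (A 0 0 - A 1 1) ^ 2 + 4 * (A 0 1 * A 1 0) := by
    rw [trace_fin_two, det_fin_two]; ring
  have h2 := norm_add_le ((A 0 0 - A 1 1) ^ 2) (4 * (A 0 1 * A 1 0))
  rw [norm_pow, norm_mul, norm_mul, ← normSq_eq_norm_sq] at h2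
  have h3 : normSq (A 0 0 + A 1 1) + normSq (A 0 0 - A 1 1) =
      2 * normSq (A 0 0) + 2 * normSq (A 1 1) := by simp [normSq_apply]; ring
  rw [tau, h1, trace_fin_two, fr, normSq_eq_norm_sq (A 0 1), normSq_eq_norm_sq (A 1 0)]
  have h4 : ‖(4 : ℂ)‖ = 4 := by simp
  rw [h4] at h2
  nlinarith [sq_nonneg (‖A 0 1‖ - ‖A 1 0‖)]

theorem tau_diag {A : M2} (h1 : A 0 1 = 0) (h2 : A 1 0 = 0) : tau A = fr A := by
  have h3 : trace A ^ 2 - 4 * det A = (A 0 0 - A 1 1) ^ 2 := by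
    rw [trace_fin_two, det_fin_two, h1]; ring
  rw [tau, h3, norm_pow, ← normSq_eq_norm_sq, trace_fin_two, fr, h1, h2]
  simp [normSq_apply]; ring

theorem tau_conj (h g : SL) : tau (h⁻¹ * g * h : SL) = tau g := by
  have : trace ((h⁻¹ * g * h : SL) : M2) = trace (g : M2) := by
    rw [SpecialLinearGroup.coe_mul, trace_mul_comm, ← SpecialLinearGroup.coe_mul,
      mul_inv_cancel_left]
  rw [tau, tau, this, SpecialLinearGroup.det_coe, SpecialLinearGroup.det_coe]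

/-- not central -/
def Nt (x : SL) : Prop := x ≠ 1 ∧ x ≠ -1

theorem nt_conj {x : SL} (h : SL) : Nt (h⁻¹ * x * h) ↔ Nt x := by
  unfold Nt
  rw [Ne, Ne, mul_assoc, inv_mul_eq_iff_eq_mul, inv_mul_eq_iff_eq_mul, mul_neg, mul_one,
    mul_eq_right, ← neg_one_mul h, mul_left_inj]

theorem nt_neg {x : SL} : Nt (-x) ↔ Nt x := by
  unfold Nt
  rw [Ne, Ne, neg_eq_iff_eq_neg, neg_inj, and_comm]

theorem nt_inv {x : SL} : Nt x⁻¹ ↔ Nt x := by
  unfold Nt
  rw [Ne, Ne, inv_eq_one, inv_eq_iff_eq_inv, inv_neg, inv_one]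

theorem not_nt {x : SL} : ¬ Nt x ↔ x = 1 ∨ x = -1 := by unfold Nt; tauto

theorem comm_of_not_nt {x : SL} (h : ¬ Nt x) (y : SL) : Commute x y := by
  rcases not_nt.1 h with rfl | rfl
  exacts [Commute.one_left y, (Commute.one_left y).neg_left]

theorem not_nt_of {x : SL} (h1 : x 0 1 = 0) (h2 : x 1 0 = 0) (h3 : x 0 0 = x 1 1) : ¬ Nt x := by
  have h := det2 x
  rw [h1, ← h3, zero_mul, sub_zero, mul_self_eq_one_iff] at h
  rw [not_nt]
  refine h.imp (fun h => sl_ext h h1 h2 (h3 ▸ h)) fun h => sl_ext h ?_ ?_ (h3 ▸ h)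
  · rw [h1]; simp
  · rw [h2]; simp

theorem comm_iff {x y : SL} : Commute x y ↔ x 0 1 * y 1 0 = y 0 1 * x 1 0 ∧
    x 0 1 * (y 0 0 - y 1 1) = y 0 1 * (x 0 0 - x 1 1) ∧
    x 1 0 * (y 0 0 - y 1 1) = y 1 0 * (x 0 0 - x 1 1) := by
  constructor
  · intro h
    have e := fun i j => congrFun (congrFun (congrArg Subtype.val h.eq) i) j
    have h0 : (x * y) 0 0 = (y * x) 0 0 := e 0 0
    have h1 : (x * y) 0 1 = (y * x) 0 1 := e 0 1
    have h2 : (x * y) 1 0 = (y * x) 1 0 := e 1 0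
    rw [mul_ent, mul_ent] at h0 h1 h2
    exact ⟨by linear_combination h0, by linear_combination -h1, by linear_combination h2⟩
  · rintro ⟨h0, h1, h2⟩
    refine sl_ext ?_ ?_ ?_ ?_ <;> rw [mul_ent, mul_ent]
    exacts [by linear_combination h0, by linear_combination -h1, by linear_combination h2,
      by linear_combination -h0]

theorem par {a b c a' b' c' : ℂ} (h : a ≠ 0 ∨ b ≠ 0 ∨ c ≠ 0) (h1 : a * b' = a' * b)
    (h2 : a * c' = a' * c) (h3 : b * c' = b' * c) : ∃ β, a' = β * a ∧ b' = β * b ∧ c' = β * c := by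
  rcases h with h | h | h
  · refine ⟨a' / a, ?_, ?_, ?_⟩ <;> field_simp
    exacts [by linear_combination h1, by linear_combination h2]
  · refine ⟨b' / b, ?_, ?_, ?_⟩ <;> field_simp
    exacts [by linear_combination -h1, by linear_combination h3]
  · refine ⟨c' / c, ?_, ?_, ?_⟩ <;> field_simp
    exacts [by linear_combination -h2, by linear_combination -h3]

theorem Nt.ne {x : SL} (h : Nt x) : x 0 1 ≠ 0 ∨ x 1 0 ≠ 0 ∨ x 0 0 - x 1 1 ≠ 0 := by
  by_contra k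
  push Not at k
  exact not_nt_of k.1 k.2.1 (sub_eq_zero.1 k.2.2) h

/-- commutative transitivity -/
theorem ct {x y z : SL} (hx : Nt x) (h1 : Commute x y) (h2 : Commute x z) : Commute y z := by
  obtain ⟨a1, a2, a3⟩ := comm_iff.1 h1
  obtain ⟨b1, b2, b3⟩ := comm_iff.1 h2
  obtain ⟨β, c1, c2, c3⟩ := par hx.ne a1 a2 a3
  obtain ⟨γ, d1, d2, d3⟩ := par hx.ne b1 b2 b3
  rw [comm_iff, c1, c2, c3, d1, d2, d3]
  exact ⟨by ring, by ring, by ring⟩

/-- translations -/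
def nn (b : ℂ) : SL := ⟨!![1, b; 0, 1], by simp [det_fin_two]⟩

/-- diagonal matrices -/
def dg (μ : ℂ) (h : μ ≠ 0) : SL := ⟨!![μ, 0; 0, μ⁻¹], by simp [det_fin_two, h]⟩

theorem nn00 (b : ℂ) : nn b 0 0 = 1 := rfl
theorem nn01 (b : ℂ) : nn b 0 1 = b := rfl
theorem nn10 (b : ℂ) : nn b 1 0 = 0 := rfl
theorem nn11 (b : ℂ) : nn b 1 1 = 1 := rfl

theorem nn_add (a b : ℂ) : nn (a + b) = nn a * nn b := by
  refine sl_ext ?_ ?_ ?_ ?_ <;> simp [mul_ent, nn00, nn01, nn10, nn11, add_comm]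

theorem nn_zero : nn 0 = 1 := sl_ext rfl rfl rfl rfl

theorem nn_neg (a : ℂ) : nn (-a) = (nn a)⁻¹ :=
  eq_inv_of_mul_eq_one_left (by rw [← nn_add, neg_add_cancel, nn_zero])

theorem nt_nn {b : ℂ} : Nt (nn b) ↔ b ≠ 0 := by
  refine ⟨fun h e => h.1 (e ▸ nn_zero), fun h => ⟨fun e => h ?_, fun e => ?_⟩⟩
  · exact (congrArg (fun x : SL => x 0 1) e :)
  · have : (1 : ℂ) = -1 := (congrArg (fun x : SL => x 0 0) e :)
    norm_num at this

theorem exists_tri (A : SL) : ∃ P : SL, (P⁻¹ * A * P) 1 0 = 0 := by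
  obtain ⟨w, hw⟩ := IsAlgClosed.exists_pow_nat_eq ((A 0 0 + A 1 1) ^ 2 - 4) two_pos
  have hd := det2 A
  by_cases h : A 1 0 = 0
  · exact ⟨1, by simpa using h⟩
  · let P : SL := ⟨!![(A 0 0 - A 1 1 + w) / (2 * A 1 0), -1; 1, 0], by simp [det_fin_two]⟩
    refine ⟨P, ?_⟩
    rw [mul_ent, mul_ent, mul_ent, inv10, inv11, show P 1 0 = 1 from rfl,
      show P 0 0 = (A 0 0 - A 1 1 + w) / (2 * A 1 0) from rfl]
    field_simp
    linear_combination hw + 4 * hd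

theorem exists_diag {T : SL} (h : T 1 0 = 0) (h2 : T 0 0 ≠ T 1 1) :
    ∃ z, ((nn z)⁻¹ * T * nn z) 0 1 = 0 ∧ ((nn z)⁻¹ * T * nn z) 1 0 = 0 ∧
      ((nn z)⁻¹ * T * nn z) 0 0 = T 0 0 ∧ ((nn z)⁻¹ * T * nn z) 1 1 = T 1 1 := by
  have := sub_ne_zero.2 h2
  refine ⟨-T 0 1 / (T 0 0 - T 1 1), ?_⟩
  simp only [← nn_neg, mul_ent, nn00, nn01, nn10, nn11, h]
  refine ⟨by field_simp; ring, by ring, by ring, by ring⟩

theorem eq_nn {T : SL} (h : T 1 0 = 0) (h2 : T 0 0 = T 1 1) : ∃ b, T = nn b ∨ T = -nn b := by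
  have h3 := det2 T
  rw [h, ← h2, mul_zero, sub_zero, mul_self_eq_one_iff] at h3
  rcases h3 with k | k
  · exact ⟨T 0 1, Or.inl (sl_ext k rfl h (h2 ▸ k))⟩
  · exact ⟨-T 0 1, Or.inr (sl_ext k (neg_neg _).symm (h.trans neg_zero.symm) (h2 ▸ k))⟩

/-- normal forms -/
theorem jordan (A : SL) : ∃ P : SL, (∃ b, P⁻¹ * A * P = nn b ∨ P⁻¹ * A * P = -nn b) ∨
    ((P⁻¹ * A * P) 0 1 = 0 ∧ (P⁻¹ * A * P) 1 0 = 0 ∧ (P⁻¹ * A * P) 0 0 ≠ (P⁻¹ * A * P) 1 1) := by
  obtain ⟨P, h⟩ := exists_tri A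
  by_cases k : (P⁻¹ * A * P) 0 0 = (P⁻¹ * A * P) 1 1
  · exact ⟨P, Or.inl (eq_nn h k)⟩
  · obtain ⟨z, h1, h2, h3, h4⟩ := exists_diag h k
    have e : (P * nn z)⁻¹ * A * (P * nn z) = (nn z)⁻¹ * (P⁻¹ * A * P) * nn z := by group
    exact ⟨P * nn z, Or.inr (by rw [e, h3, h4]; exact ⟨h1, h2, k⟩)⟩

end

end Vale.Agent.P216HY
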