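import Vale.Agent.P216HY.Cusp
import Vale.Agent.P216FI.Warp

/-!
The action of the special linear group on the upper half space in logarithmic coordinates.
-/

set_option linter.all false

open Matrix Complex Filter Topology
open scoped ContDiff
open Vale.Agent.P216R

namespace Vale.Agent.P216HY

noncomputable section

/-- the horizontal coordinate -/
def zz (p : E3) : ℂ := ⟨p 0, p 1⟩

/-- the point with given horizontal coordinate and height -/
def mk (z : ℂ) (r : ℝ) : E3 := !₂[z.re, z.im, r]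

theorem zz_mk (z : ℂ) (r : ℝ) : zz (mk z r) = z := rfl

theorem mk_2 (z : ℂ) (r : ℝ) : mk z r 2 = r := rfl

theorem mk_zz (p : E3) : mk (zz p) (p 2) = p := by
  ext i; fin_cases i <;> rfl

theorem pt_ext {p q : E3} (h1 : zz p = zz q) (h2 : p 2 = q 2) : p = q := by
  rw [← mk_zz p, h1, h2, mk_zz]

theorem zz_zero : zz 0 = 0 := rfl

theorem zz_smul (t : ℝ) (v : E3) : zz (t • v) = t * zz v := by
  apply Complex.ext <;> simp [zz]

theorem ex_ne (r : ℝ) : ((Real.exp r : ℝ) : ℂ) ≠ 0 := ofReal_ne_zero.2 (Real.exp_ne_zero r)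

/-- a matrix moving the origin to `p` -/
def sec (p : E3) : SL := nn (zz p) * dg (Real.exp (p 2 / 2) : ℝ) (ex_ne _)

/-- the image of the origin -/
def pos (h : SL) : E3 := mk (up h / lo h) (-Real.log (lo h))

/-- the action -/
def act (γ : SL) (p : E3) : E3 := pos (γ * sec p)

/-- the hermitian matrix of a point -/
def XX (h : SL) : M2 := (h : M2) * (h : M2)ᴴ

theorem dg01 {μ : ℂ} (h : μ ≠ 0) : dg μ h 0 1 = 0 := rfl
theorem dg10 {μ : ℂ} (h : μ ≠ 0) : dg μ h 1 0 = 0 := rfl
theorem dg11 {μ : ℂ} (h : μ ≠ 0) : dg μ h 1 1 = μ⁻¹ := rfl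

theorem sec00 (p : E3) : sec p 0 0 = (Real.exp (p 2 / 2) : ℝ) := by
  rw [sec, mul_ent, nn00, dg00, dg10, one_mul, mul_zero, add_zero]

theorem sec01 (p : E3) : sec p 0 1 = zz p * (Real.exp (-(p 2 / 2)) : ℝ) := by
  rw [sec, mul_ent, nn01, dg01, dg11, mul_zero, zero_add, Real.exp_neg, ofReal_inv]

theorem sec10 (p : E3) : sec p 1 0 = 0 := by
  rw [sec, mul_ent, nn10, dg10, zero_mul, mul_zero, add_zero]

theorem sec11 (p : E3) : sec p 1 1 = (Real.exp (-(p 2 / 2)) : ℝ) := by
  rw [sec, mul_ent, nn10, nn11, dg11, zero_mul, zero_add, one_mul, Real.exp_neg, ofReal_inv]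

theorem exp_half (r : ℝ) : Real.exp (r / 2) * Real.exp (r / 2) = Real.exp r := by
  rw [← Real.exp_add, add_halves]

theorem lo_sec (p : E3) : lo (sec p) = Real.exp (-p 2) := by
  rw [lo, sec10, sec11, normSq_ofReal, map_zero, zero_add, ← neg_div, exp_half]

theorem up_sec (p : E3) : up (sec p) = zz p * (Real.exp (-p 2) : ℝ) := by
  rw [up, sec10, sec11, sec01, map_zero, mul_zero, zero_add, conj_ofReal, mul_assoc, ← ofReal_mul,
    ← neg_div, exp_half]

theorem pos_sec (p : E3) : pos (sec p) = p := by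
  rw [pos, lo_sec, up_sec, mul_div_cancel_right₀ _ (ex_ne _), Real.log_exp, neg_neg, mk_zz]

theorem sec_zero : sec 0 = 1 :=
  sl_ext (by simp [sec00]) (by simp [sec01, zz_zero]) (by simp [sec10]) (by simp [sec11])

theorem pos_one : pos 1 = 0 := by rw [← sec_zero, pos_sec]

theorem XX11 (h : SL) : XX h 1 1 = lo h := by simp [XX, lo, mul_apply, mul_conj]

theorem XX01 (h : SL) : XX h 0 1 = up h := by simp [XX, up, mul_apply]

theorem XX10 (h : SL) : XX h 1 0 = (starRingEnd ℂ) (up h) := by simp [XX, up, mul_apply, mul_comm]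

theorem XX00 (h : SL) : XX h 0 0 = ((1 + normSq (up h)) / lo h : ℝ) := by
  have : (1 + normSq (up h)) / lo h = normSq (h 0 0) + normSq (h 0 1) := by
    have h1 := fr_lo h
    rw [div_eq_iff (lo_pos h).ne']
    unfold fr at h1
    unfold lo at h1 ⊢
    linear_combination -h1
  rw [this]
  simp [XX, mul_apply, mul_conj]

theorem XX_mul (γ h : SL) : XX (γ * h) = γ * XX h * (γ : M2)ᴴ := by
  simp [XX, mul_assoc]

theorem pos_eq_iff {h k : SL} : pos h = pos k ↔ XX h = XX k := by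
  constructor
  · intro e
    have h1 : lo h = lo k := Real.log_injOn_pos (lo_pos h) (lo_pos k)
      (neg_injective (congrArg (fun p : E3 => p 2) e))
    have h2 : up h / lo h = up k / lo k := congrArg zz e
    rw [h1, div_left_inj' (ofReal_ne_zero.2 (lo_pos k).ne')] at h2
    ext i j
    fin_cases i <;> fin_cases j <;> simp [XX00, XX01, XX10, XX11, h1, h2]
  · intro e
    have h1 : lo h = lo k := ofReal_injective (by rw [← XX11, ← XX11, e])
    rw [pos, pos, h1, ← XX01, ← XX01, e]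

theorem XX_pos (h : SL) : XX (sec (pos h)) = XX h := pos_eq_iff.1 (pos_sec _)

theorem act_pos (γ h : SL) : act γ (pos h) = pos (γ * h) :=
  pos_eq_iff.2 (by rw [XX_mul, XX_mul, XX_pos])

theorem act_mul (γ δ : SL) (p : E3) : act (γ * δ) p = act γ (act δ p) := by
  rw [show act δ p = pos (δ * sec p) from rfl, act_pos, ← mul_assoc, act]

theorem act_one (p : E3) : act 1 p = p := by rw [act, one_mul, pos_sec]

theorem act_zero (γ : SL) : act γ 0 = pos γ := by rw [act, sec_zero, mul_one]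

theorem pos_neg (h : SL) : pos (-h) = pos h := pos_eq_iff.2 (by simp [XX])

theorem act_neg (γ : SL) (p : E3) : act (-γ) p = act γ p := by rw [act, neg_mul, pos_neg, act]

theorem act_inv_act (γ : SL) (p : E3) : act γ⁻¹ (act γ p) = p := by
  rw [← act_mul, inv_mul_cancel, act_one]

theorem act_act_inv (γ : SL) (p : E3) : act γ (act γ⁻¹ p) = p := by
  rw [← act_mul, mul_inv_cancel, act_one]

theorem act_injective (γ : SL) : Function.Injective (act γ) :=
  Function.LeftInverse.injective (act_inv_act γ)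

theorem act_of_not_nt {γ : SL} (h : ¬ Nt γ) (p : E3) : act γ p = p := by
  rcases not_nt.1 h with rfl | rfl
  exacts [act_one p, by rw [act_neg, act_one]]

theorem XX_act (γ : SL) (p : E3) : XX (sec (act γ p)) = γ * XX (sec p) * (γ : M2)ᴴ := by
  rw [act, XX_pos, XX_mul]

theorem XX_one : XX 1 = 1 := by simp [XX]

theorem pos_eq_iff_fr {h k : SL} : pos h = pos k ↔ fr (h⁻¹ * k : SL) ≤ 2 := by
  have : pos h = pos k ↔ pos 1 = pos (h⁻¹ * k) := by
    rw [← act_pos, ← (act_injective h⁻¹).eq_iff, act_pos, inv_mul_cancel]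
  rw [this, pos_eq_iff, XX_one]
  refine ⟨fun e => ?_, fun e => (unit_of_fr e).symm⟩
  rw [fr_tr, ← XX, ← e]
  simp

theorem fr_pos (h : SL) : fr (sec (pos h)) = fr h := by
  rw [fr_tr, fr_tr, ← XX, ← XX, XX_pos]

theorem lo_pos_eq (h : SL) : lo h = Real.exp (-pos h 2) := by
  rw [pos, mk_2, neg_neg, Real.exp_log (lo_pos h)]

theorem lo_lt_iff {h : SL} {L : ℝ} : lo h < Real.exp (-L) ↔ L < pos h 2 := by
  rw [lo_pos_eq, Real.exp_lt_exp, neg_lt_neg_iff]

theorem act_tri {u : SL} (hu : u 1 0 = 0) (p : E3) :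
    act u p = mk (u 0 0 ^ 2 * zz p + u 0 0 * u 0 1) (p 2 + Real.log (normSq (u 0 0))) := by
  have h := det2 u
  rw [hu, mul_zero, sub_zero] at h
  have h0 := left_ne_zero_of_mul_eq_one h
  have h1 : u 1 1 = (u 0 0)⁻¹ := eq_inv_of_mul_eq_one_right h
  have h2 := (map_ne_zero (starRingEnd ℂ)).2 h0
  have h3 := ex_ne (-p 2)
  rw [act, pos, lo_tri hu, ← XX01, XX_mul, h1, normSq_inv, lo_sec,
    Real.log_mul (inv_ne_zero (normSq_pos.2 h0).ne') (Real.exp_ne_zero _), Real.log_inv,
    Real.log_exp]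
  congr 1
  · simp only [mul_apply, Fin.sum_univ_two, conjTranspose_apply, hu, XX01, XX11, lo_sec, up_sec, h1,
      ofReal_mul, ofReal_inv, ← mul_conj, map_zero, mul_zero, zero_add, star_def, map_inv₀]
    field_simp
  · ring

theorem act_nn (e : ℂ) (p : E3) : act (nn e) p = mk (zz p + e) (p 2) := by
  simp [act_tri (nn10 e), nn00, nn01]

theorem act_dg {μ : ℂ} (h : μ ≠ 0) (p : E3) :
    act (dg μ h) p = mk (μ ^ 2 * zz p) (p 2 + Real.log (normSq μ)) := by
  rw [act_tri rfl, dg00, dg01, mul_zero, add_zero]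

theorem act_sec (q p : E3) :
    act (sec q) p = mk ((Real.exp (q 2) : ℝ) * zz p + zz q) (p 2 + q 2) := by
  rw [sec, act_mul, act_dg, act_nn, zz_mk, mk_2, normSq_ofReal, sq, ← ofReal_mul, exp_half,
    Real.log_exp]

/-! ### smoothness -/

section Smooth

variable {F : Type} [NormedAddCommGroup F] [NormedSpace ℝ F]

theorem cd_re {f : F → ℂ} (h : ContDiff ℝ ∞ f) : ContDiff ℝ ∞ fun x => (f x).re :=
  reCLM.contDiff.comp h

theorem cd_im {f : F → ℂ} (h : ContDiff ℝ ∞ f) : ContDiff ℝ ∞ fun x => (f x).im :=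
  imCLM.contDiff.comp h

theorem cd_of {f : F → ℝ} (h : ContDiff ℝ ∞ f) : ContDiff ℝ ∞ fun x => (f x : ℂ) :=
  ofRealCLM.contDiff.comp h

theorem cd_conj {f : F → ℂ} (h : ContDiff ℝ ∞ f) : ContDiff ℝ ∞ fun x => (starRingEnd ℂ) (f x) :=
  conjCLE.contDiff.comp h

theorem cd_normSq {f : F → ℂ} (h : ContDiff ℝ ∞ f) : ContDiff ℝ ∞ fun x => normSq (f x) :=
  ((cd_re h).mul (cd_re h)).add ((cd_im h).mul (cd_im h))

theorem cd_mk {f : F → ℂ} {r : F → ℝ} (h : ContDiff ℝ ∞ f) (hr : ContDiff ℝ ∞ r) :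
    ContDiff ℝ ∞ fun x => mk (f x) (r x) := by
  refine contDiff_euclidean.2 fun i => ?_
  fin_cases i
  exacts [cd_re h, cd_im h, hr]

theorem cd_coord (i : Fin 3) : ContDiff ℝ ∞ fun p : E3 => p i := (P216FI.dx i).contDiff

theorem cd_zz : ContDiff ℝ ∞ zz := by
  have : zz = fun p => (p 0 : ℂ) + p 1 * I := funext fun p => mk_eq_add_mul_I _ _
  rw [this]
  exact (cd_of (cd_coord 0)).add ((cd_of (cd_coord 1)).mul contDiff_const)

theorem cd_pos {s : F → SL} (h : ∀ i j, ContDiff ℝ ∞ fun x => s x i j) :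
    ContDiff ℝ ∞ fun x => pos (s x) := by
  have h1 : ContDiff ℝ ∞ fun x => lo (s x) := (cd_normSq (h 1 0)).add (cd_normSq (h 1 1))
  have h2 : ContDiff ℝ ∞ fun x => up (s x) :=
    ((h 0 0).mul (cd_conj (h 1 0))).add ((h 0 1).mul (cd_conj (h 1 1)))
  exact cd_mk (h2.mul ((cd_of h1).inv fun x => ofReal_ne_zero.2 (lo_pos _).ne'))
    (h1.log fun x => (lo_pos _).ne').neg

theorem cd_sec (i j : Fin 2) : ContDiff ℝ ∞ fun p => sec p i j := by
  have h := (cd_coord 2).div_const 2
  fin_cases i <;> fin_cases j <;> simp only [Fin.zero_eta, Fin.mk_one, sec00, sec01, sec10, sec11]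
  exacts [cd_of h.exp, cd_zz.mul (cd_of h.neg.exp), contDiff_const, cd_of h.neg.exp]

theorem cd_act (γ : SL) : ContDiff ℝ ∞ (act γ) :=
  cd_pos (s := fun p => γ * sec p) fun i j => by
    simp only [mul_ent]
    exact (contDiff_const.mul (cd_sec 0 j)).add (contDiff_const.mul (cd_sec 1 j))

end Smooth

theorem continuous_sec : Continuous sec :=
  continuous_induced_rng.2 (continuous_matrix fun i j => (cd_sec i j).continuous)

theorem continuous_pos : Continuous pos := by
  have h : ∀ i j, Continuous fun x : SL => x i j := fun i j =>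
    continuous_subtype_val.matrix_elem i j
  have h1 : Continuous lo := (continuous_normSq.comp (h 1 0)).add (continuous_normSq.comp (h 1 1))
  have h2 : Continuous up := ((h 0 0).mul (continuous_conj.comp (h 1 0))).add
    ((h 0 1).mul (continuous_conj.comp (h 1 1)))
  have h3 : Continuous fun q : ℂ × ℝ => mk q.1 q.2 :=
    (cd_mk contDiff_fst contDiff_snd).continuous
  exact h3.comp ((h2.div (continuous_ofReal.comp h1) fun x =>
    ofReal_ne_zero.2 (lo_pos _).ne').prodMk (h1.log fun x => (lo_pos _).ne').neg)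

theorem isCompact_sl (R : ℝ) : IsCompact {A : SL | fr A ≤ R} := by
  refine Subtype.isCompact_iff.2 ?_
  convert isCompact_fr R using 1
  ext A
  exact ⟨fun ⟨B, h1, h2⟩ => h2 ▸ ⟨B.2, h1⟩, fun h => ⟨⟨A, h.1⟩, h.2, rfl⟩⟩

theorem exists_nhds {c : ℝ} (hc : 2 < c) : ∀ᶠ q : E3 × E3 in 𝓝 (0, 0), ∀ u : SL, fr u ≤ 2 →
    fr (sec q.1 * u * (sec q.2)⁻¹ : SL) < c := by
  refine (isCompact_sl 2).eventually_forall_of_forall_eventually fun u hu => ?_
  have := continuous_sec
  refine (continuous_fr'.comp (f := fun z : (E3 × E3) × SL => sec z.1.1 * z.2 * (sec z.1.2)⁻¹)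
    (by fun_prop)).continuousAt.eventually_lt continuousAt_const ?_
  simpa [sec_zero] using hu.trans_lt hc

end

end Vale.Agent.P216HY
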