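import Vale.Agent.P216HY.Grp
import Mathlib.Topology.Algebra.Group.Matrix
import Mathlib.Topology.Connected.Clopen

/-!
Thick and thin points of a discrete group of finite covolume.
-/

set_option linter.all false

open Matrix Complex Filter Topology

namespace Vale.Agent.P216HY

noncomputable section

variable {Γ : Subgroup SL} {c : ℝ}

theorem fr_mul' (A B : SL) : fr (A * B : SL) ≤ fr A * fr B := fr_mul _ _

theorem continuous_fr' : Continuous fun g : SL => fr g := continuous_fr.comp continuous_subtype_val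

theorem continuous_D (g : SL) : Continuous fun h => D h g :=
  continuous_fr'.comp (f := fun h : SL => h⁻¹ * g * h) (by fun_prop)

theorem D_conj (γ h g : SL) : D (γ * h) (γ * g * γ⁻¹) = D h g := by
  rw [D_mul, show γ⁻¹ * (γ * g * γ⁻¹) * γ = g by group]

theorem nt_conj' {x : SL} (h : SL) : Nt (h * x * h⁻¹) ↔ Nt x := by
  simpa using nt_conj (x := x) h⁻¹

theorem comm_conj {x y : SL} (h : Commute x y) (γ : SL) : Commute (γ * x * γ⁻¹) (γ * y * γ⁻¹) :=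
  h.map (MulAut.conj γ)

theorem comm_conj' {x y : SL} (h : Commute x y) (γ : SL) :
    Commute (γ⁻¹ * x * γ) (γ⁻¹ * y * γ) := by simpa using comm_conj h γ⁻¹

/-- finite covolume: separated families of embedded balls of a fixed radius are finite -/
def FV (Γ : Subgroup SL) : Prop := ∀ c, 2 < c → ∀ S : Set SL,
  (∀ x ∈ S, ∀ y ∈ S, ∀ γ ∈ Γ, fr (x⁻¹ * γ * y : SL) < c → x = y ∧ ¬ Nt γ) → S.Finite

/-- thick points -/
def Tk (Γ : Subgroup SL) (c : ℝ) (x : SL) : Prop := ∀ γ ∈ Γ, Nt γ → c ≤ D x γ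

/-- short elements commute -/
def Mg (Γ : Subgroup SL) (c : ℝ) : Prop :=
  ∀ h, ∀ f ∈ Γ, ∀ g ∈ Γ, D h f < c → D h g < c → Commute f g

/-- the thin points of the centraliser of `f` -/
def Th (Γ : Subgroup SL) (c : ℝ) (f : SL) : Set SL :=
  {h | ∃ g ∈ Γ, Nt g ∧ Commute f g ∧ D h g < c}

theorem FV.net (h : FV Γ) (hc : 2 < c) : ∃ R, ∀ x, Tk Γ c x → ∃ γ ∈ Γ, fr (γ * x : SL) ≤ R := by
  by_contra k
  push Not at k
  have hs : ∀ x y : SL, (∀ γ ∈ Γ, c ≤ fr (x⁻¹ * γ * y : SL)) →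
      ∀ γ ∈ Γ, c ≤ fr (y⁻¹ * γ * x : SL) := fun x y e γ hγ => by
    rw [← fr_inv, show (y⁻¹ * γ * x)⁻¹ = x⁻¹ * γ⁻¹ * y by group]
    exact e _ (inv_mem hγ)
  haveI : Std.Symm fun x y : SL => ∀ γ ∈ Γ, c ≤ fr (x⁻¹ * γ * y : SL) := ⟨hs⟩
  obtain ⟨f, f1, f2⟩ := exists_seq_of_forall_finset_exists' (Tk Γ c)
    (fun x y : SL => ∀ γ ∈ Γ, c ≤ fr (x⁻¹ * γ * y : SL)) fun s _ => by
      obtain ⟨y, y1, y2⟩ := k ((∑ x ∈ s, fr (x : SL)) * c)
      refine ⟨y, y1, fun x hx γ hγ => le_of_not_gt fun e => (y2 γ hγ).not_ge ?_⟩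
      rw [show γ * y = x * (x⁻¹ * γ * y) by group]
      exact (fr_mul' _ _).trans (mul_le_mul (Finset.single_le_sum
        (f := fun x : SL => fr x) (fun _ _ => fr_nonneg _) hx) e.le (fr_nonneg _)
        (Finset.sum_nonneg fun _ _ => fr_nonneg _))
  refine Set.infinite_range_of_injective (f := f) (fun m n e => ?_) (h c hc _ ?_)
  · by_contra k
    have := f2 k 1 (one_mem _)
    rw [e, mul_one, inv_mul_cancel, SpecialLinearGroup.coe_one, fr_one] at this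
    linarith
  · rintro _ ⟨m, rfl⟩ _ ⟨n, rfl⟩ γ hγ e
    obtain rfl : m = n := by_contra fun k => (f2 k γ hγ).not_gt e
    exact ⟨rfl, fun k => (f1 m γ hγ k).not_gt e⟩

theorem Mg.comm (h : Mg Γ c) {f f' x : SL} (h1 : x ∈ Th Γ c f) (h2 : x ∈ Th Γ c f') :
    Commute f f' := by
  obtain ⟨g, g1, g2, g3, g4⟩ := h1
  obtain ⟨k, k1, k2, k3, k4⟩ := h2
  exact ct k2 (ct g2 (h x g g1 k k1 g4 k4) g3.symm) k3.symm

theorem th_conj {f x γ : SL} (hγ : γ ∈ Γ) (h : x ∈ Th Γ c f) : γ * x ∈ Th Γ c (γ * f * γ⁻¹) := by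
  obtain ⟨g, g1, g2, g3, g4⟩ := h
  exact ⟨γ * g * γ⁻¹, mul_mem (mul_mem hγ g1) (inv_mem hγ), (nt_conj' γ).2 g2, comm_conj g3 γ,
    by rwa [D_conj]⟩

theorem th_mono {f f' x : SL} (hf : Nt f) (e : Commute f f') (h : x ∈ Th Γ c f) :
    x ∈ Th Γ c f' := by
  obtain ⟨g, g1, g2, g3, g4⟩ := h
  exact ⟨g, g1, g2, ct hf e g3, g4⟩

/-- the centraliser of `f` is parabolic -/
def Pb (P f : SL) : Prop := ∀ g, Commute f g → ∃ b, P⁻¹ * g * P = nn b ∨ P⁻¹ * g * P = -nn b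

/-- the centraliser of `f` is diagonal -/
def Lx (P f : SL) : Prop := ∀ g, Commute f g → (P⁻¹ * g * P) 0 1 = 0 ∧ (P⁻¹ * g * P) 1 0 = 0

theorem shape {f : SL} (hf : Nt f) : ∃ P, Pb P f ∨ Lx P f := by
  obtain ⟨P, h⟩ := jordan f
  have hn := (nt_conj P).2 hf
  refine ⟨P, h.imp (fun h g hg => ?_) fun h g hg => ?_⟩
  · obtain ⟨b, h⟩ := h
    have k := comm_conj' hg P
    have : b ≠ 0 ∧ Commute (nn b) (P⁻¹ * g * P) := by
      rcases h with h | h <;> rw [h] at hn k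
      exacts [⟨nt_nn.1 hn, k⟩, ⟨nt_nn.1 (nt_neg.1 hn), by simpa using k⟩]
    obtain ⟨a1, a2, -⟩ := comm_iff.1 this.2
    rw [nn01, nn10, mul_zero] at a1
    rw [nn01, nn00, nn11, sub_self, mul_zero] at a2
    exact eq_nn ((mul_eq_zero.1 a1).resolve_left this.1)
      (sub_eq_zero.1 ((mul_eq_zero.1 a2).resolve_left this.1))
  · obtain ⟨-, a2, a3⟩ := comm_iff.1 (comm_conj' hg P)
    rw [h.1, zero_mul] at a2
    rw [h.2.1, zero_mul] at a3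
    have := sub_ne_zero.2 h.2.2
    exact ⟨(mul_eq_zero.1 a2.symm).resolve_right this, (mul_eq_zero.1 a3.symm).resolve_right this⟩

/-- lower triangular matrices -/
def ml (t : ℝ) : SL := ⟨!![1, 0; t, 1], by simp [det_fin_two]⟩

theorem continuous_ml : Continuous ml := by
  refine continuous_induced_rng.2 (continuous_matrix fun i j => ?_)
  fin_cases i <;> fin_cases j <;> simp [ml] <;> fun_prop

theorem ml_zero : ml 0 = 1 := sl_ext rfl rfl rfl rfl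

theorem grow {T : SL} (h : T 1 0 = 0) (h2 : T 0 0 = T 1 1 ∨ T 0 1 = 0) (t : ℝ) :
    fr T + t ^ 2 * (normSq (T 0 0 - T 1 1) + normSq (T 0 1)) ≤ D (ml t) T := by
  simp only [D, fr, mul_ent, inv00, inv01, inv10, inv11, show ml t 0 0 = 1 from rfl,
    show ml t 0 1 = 0 from rfl, show ml t 1 0 = t from rfl, show ml t 1 1 = 1 from rfl, h]
  rcases h2 with e | e
  · rw [← e]
    simp [normSq_apply]
    nlinarith [sq_nonneg ((T 0 1).re * t), sq_nonneg ((T 0 1).im * t),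
      sq_nonneg ((T 0 1).re * t ^ 2), sq_nonneg ((T 0 1).im * t ^ 2)]
  · simp [e, normSq_apply]
    exact le_of_eq (by ring)

theorem KG.escape (h : KG Γ) {f : SL} (hf : Nt f) (x : SL) :
    ∃ φ : ℝ → SL, Continuous φ ∧ φ 0 = x ∧ ∃ t, φ t ∉ Th Γ c f := by
  obtain ⟨P, hP⟩ := shape hf
  have h1 : ∀ g, Commute f g → (P⁻¹ * g * P) 1 0 = 0 ∧
      ((P⁻¹ * g * P) 0 0 = (P⁻¹ * g * P) 1 1 ∨ (P⁻¹ * g * P) 0 1 = 0) := fun g hg => by
    rcases hP with k | k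
    · obtain ⟨b, e | e⟩ := k g hg <;> rw [e]
      exacts [⟨rfl, Or.inl rfl⟩, ⟨neg_zero, Or.inl rfl⟩]
    · exact ⟨(k g hg).2, Or.inr (k g hg).1⟩
  refine ⟨fun t => P * ml t * (P⁻¹ * x), by have := continuous_ml; fun_prop, by simp [ml_zero], ?_⟩
  set R := fr (P⁻¹ * x : SL) ^ 2 * c
  have h2 : ∀ᶠ t : ℝ in atTop, ∀ g ∈ {g | g ∈ Γ ∧ D P g ≤ R}, Nt g → Commute f g →
      R ≤ t ^ 2 * (normSq ((P⁻¹ * g * P) 0 0 - (P⁻¹ * g * P) 1 1) + normSq ((P⁻¹ * g * P) 0 1)) := by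
    refine (eventually_all_finite (h.fin P R)).2 fun g _ => ?_
    by_cases k : Nt g ∧ Commute f g
    · have : 0 < normSq ((P⁻¹ * g * P) 0 0 - (P⁻¹ * g * P) 1 1) + normSq ((P⁻¹ * g * P) 0 1) := by
        rcases ((nt_conj P).2 k.1).ne with e | e | e
        · exact add_pos_of_nonneg_of_pos (normSq_nonneg _) (normSq_pos.2 e)
        · exact absurd (h1 g k.2).1 e
        · exact add_pos_of_pos_of_nonneg (normSq_pos.2 e) (normSq_nonneg _)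
      exact (((tendsto_pow_atTop two_ne_zero).atTop_mul_const this).eventually_ge_atTop R).mono
        fun t e _ _ => e
    · exact Eventually.of_forall fun t a b => absurd ⟨a, b⟩ k
  obtain ⟨t, ht⟩ := h2.exists
  refine ⟨t, fun ⟨g, g1, g2, g3, g4⟩ => ?_⟩
  have a1 := D_le (P * ml t * (P⁻¹ * x)) (P⁻¹ * x)⁻¹ g
  rw [mul_inv_cancel_right, fr_inv, D_mul] at a1
  have a2 := (grow (h1 g g3).1 (h1 g g3).2 t).trans
    (a1.trans (mul_le_mul_of_nonneg_left g4.le (sq_nonneg _)))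
  have a3 := mul_nonneg (sq_nonneg t) (add_nonneg
    (normSq_nonneg ((P⁻¹ * g * P) 0 0 - (P⁻¹ * g * P) 1 1)) (normSq_nonneg ((P⁻¹ * g * P) 0 1)))
  have a4 := ht g ⟨g1, by rw [D]; linarith⟩ g2 g3
  linarith [two_le_fr (P⁻¹ * g * P)]

theorem isOpen_short (Q : SL → Prop) : IsOpen {h | ∃ g, Q g ∧ D h g < c} := by
  simp only [Set.setOf_exists]
  exact isOpen_iUnion fun g => isOpen_const.inter (isOpen_lt (continuous_D g) continuous_const)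

theorem KG.near (h : KG Γ) (hm : Mg Γ c) {f x : SL} (hf : Nt f) (hx : x ∈ Th Γ c f) :
    ∃ y, Tk Γ c y ∧ ∃ g ∈ Γ, Nt g ∧ Commute f g ∧ D y g ≤ 9 * c := by
  obtain ⟨φ, h1, h2, t, h3⟩ := h.escape (c := c) hf x
  have ho : IsOpen (φ ⁻¹' Th Γ c f) := by
    simpa only [Th, and_assoc] using
      (isOpen_short (c := c) fun g => g ∈ Γ ∧ Nt g ∧ Commute f g).preimage h1
  obtain ⟨s, s1⟩ := (nonempty_frontier_iff (s := φ ⁻¹' Th Γ c f)).2
    ⟨⟨0, by rwa [Set.mem_preimage, h2]⟩, fun e => h3 (e ▸ Set.mem_univ t : t ∈ φ ⁻¹' Th Γ c f)⟩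
  rw [ho.frontier_eq] at s1
  refine ⟨φ s, fun γ hγ hn => le_of_not_gt fun e => ?_, ?_⟩
  · obtain ⟨u, u1, u2⟩ := mem_closure_iff.1 s1.1 _
      (isOpen_lt ((continuous_D γ).comp h1) continuous_const) e
    exact s1.2 ⟨γ, hγ, hn, hm.comm u2 ⟨γ, hγ, hn, Commute.refl γ, u1⟩, e⟩
  · obtain ⟨u, u1, g, g1, g2, g3, g4⟩ := mem_closure_iff.1 s1.1 _
      (isOpen_lt (continuous_fr'.comp (f := fun u => (φ u)⁻¹ * φ s) (by fun_prop))
        (continuous_const (y := 3))) (show fr ((φ s)⁻¹ * φ s : SL) < 3 by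
          rw [inv_mul_cancel, SpecialLinearGroup.coe_one, fr_one]; norm_num)
    refine ⟨g, g1, g2, g3, ?_⟩
    have a1 := D_le (φ u) ((φ u)⁻¹ * φ s) g
    rw [mul_inv_cancel_left] at a1
    have a2 : fr ((φ u)⁻¹ * φ s : SL) < 3 := u1
    have a3 := pow_le_pow_left₀ (fr_nonneg _) a2.le 2
    exact a1.trans (mul_le_mul (by linarith) g4.le (by linarith [two_le_D (φ u) g]) (by norm_num))

theorem KG.cover (h : KG Γ) (hv : FV Γ) (hm : Mg Γ c) (hc : 2 < c) : ∃ F : Set SL, F.Finite ∧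
    (∀ f ∈ F, f ∈ Γ ∧ Nt f) ∧ ∀ x, Tk Γ c x ∨ ∃ γ ∈ Γ, ∃ f ∈ F, γ * x ∈ Th Γ c f := by
  obtain ⟨R, hR⟩ := hv.net hc
  refine ⟨{f | (f ∈ Γ ∧ fr f ≤ R ^ 2 * (9 * c)) ∧ Nt f}, (h.disc _).subset fun _ e => e.1,
    fun f e => ⟨e.1.1, e.2⟩, fun x => or_iff_not_imp_left.2 fun k => ?_⟩
  simp only [Tk, not_forall, not_le] at k
  obtain ⟨f, f1, f2, f3⟩ := k
  have hx : x ∈ Th Γ c f := ⟨f, f1, f2, Commute.refl f, f3⟩
  obtain ⟨y, y1, g, g1, g2, g3, g4⟩ := h.near hm f2 hx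
  obtain ⟨γ, hγ, e⟩ := hR y y1
  refine ⟨γ, hγ, γ * g * γ⁻¹, ⟨⟨mul_mem (mul_mem hγ g1) (inv_mem hγ), ?_⟩, (nt_conj' γ).2 g2⟩,
    th_conj hγ (th_mono f2 g3 hx)⟩
  have a1 := D_le (γ * y) (γ * y)⁻¹ (γ * g * γ⁻¹)
  rw [mul_inv_cancel, D_one, fr_inv, D_conj] at a1
  exact a1.trans (mul_le_mul (pow_le_pow_left₀ (fr_nonneg _) e 2) g4
    (by linarith [two_le_D y g]) (sq_nonneg _))

theorem exists_gt_two {α : Type} {s : Set α} (hs : s.Finite) {Q : α → ℝ → Prop}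
    (h : ∀ a ∈ s, ∃ d, 2 < d ∧ ∀ e ≤ d, Q a e) (hc : 2 < c) :
    ∃ d, 2 < d ∧ d ≤ c ∧ ∀ a ∈ s, Q a d := by
  have h1 : ∀ d : ℝ, 2 < d → ∀ᶠ e in 𝓝[>] 2, e ≤ d := fun d hd =>
    nhdsWithin_le_nhds (eventually_le_nhds hd)
  refine (eventually_mem_nhdsWithin.and ((h1 c hc).and
    ((eventually_all_finite hs).2 fun a ha => ?_))).exists
  obtain ⟨d, d1, d2⟩ := h a ha
  exact (h1 d d1).mono d2

theorem KG.lox (h : KG Γ) (hm : Mg Γ c) (hc : 2 < c) {P f : SL} (hP : Lx P f) :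
    ∃ d, 2 < d ∧ ∀ e ≤ d, ∀ x ∈ Th Γ c f, Tk Γ e x := by
  obtain ⟨d, d1, d2, d3⟩ := exists_gt_two (Q := fun g e => Nt g → e ≤ D P g) (h.fin P c)
    (fun g hg => by
      by_cases k : Nt g
      · exact ⟨D P g, lt_of_not_ge fun e => h.free g hg.1 P e k, fun e a _ => a⟩
      · exact ⟨3, by norm_num, fun e _ a => absurd a k⟩) hc
  refine ⟨d, d1, fun e he x hx γ hγ hn => he.trans (le_of_not_gt fun k => ?_)⟩
  obtain ⟨a1, a2⟩ := hP γ (hm.comm hx ⟨γ, hγ, hn, Commute.refl γ, k.trans_le d2⟩)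
  have a3 : D P γ ≤ D x γ := by
    rw [D, ← tau_diag a1 a2, tau_conj]
    exact tau_le_D x γ
  linarith [d3 γ ⟨hγ, by linarith⟩ hn]

end

end Vale.Agent.P216HY
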